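import Crest.Agent.X212.Der92.Wy

/-!
# Row 212, CRIT-DER (helper92), part 3: `DerStmt` and `SepStmt`
-/

set_option autoImplicit false
set_option linter.unusedSectionVars false
noncomputable section
open scoped Manifold ContDiff Topology InnerProductSpace
open MeasureTheory Set Function Filter

namespace Crest.Agent.X212.Der92
open An Sob92 Wrd81 Nt92 Dgr80 Cyf70 Nd18 Crt72 Std94

variable {E3 : Type} [NormedAddCommGroup E3] [NormedSpace ℝ E3] [FiniteDimensional ℝ E3]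
  [MeasurableSpace E3] [BorelSpace E3]
  {H3 : Type} [TopologicalSpace H3] {I3 : ModelWithCorners ℝ E3 H3} [I3.Boundaryless]
  {Y : Type} [TopologicalSpace Y] [ChartedSpace H3 Y] [IsManifold I3 ∞ Y] [T2Space Y]
  [MeasurableSpace Y] [BorelSpace Y] [SecondCountableTopology Y] [CompactSpace Y]
  {κ : Type} [Fintype κ] {lam : Type} [Fintype lam] {D : YD I3 Y κ lam} {β β' : YC Y κ lam}

theorem yw_mul (f : Y → ℝ) (u : List (YL Y)) (y : Y) :
    yw D.F β (.mul f :: u) y = f y • yw D.F β u y := rfl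

theorem sq_pos1 {V : Type} [NormedAddCommGroup V] (v : V) : 0 < √(1 + ‖v‖ ^ 2) := by positivity

theorem inner_dn (l φ : Y → β.m.V) (y : Y) : ⟪dn β l y, φ y⟫_ℝ = ⟪l y, dn β φ y⟫_ℝ := by
  simp only [dn, inner_sub_left, inner_sub_right, real_inner_smul_left, real_inner_smul_right,
    real_inner_comm (β.Φ y)]
  ring

theorem YA.sm_dn (h : YA D β) {φ : Y → β.m.V} (hφ : Sm I3 φ) : Sm I3 (dn β φ) := by
  have a : Sm I3 fun y => (√(1 + ‖β.Φ y‖ ^ 2))⁻¹ :=
    (((contDiff_const.add (contDiff_norm_sq ℝ)).sqrt fun _ => by positivity).inv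
      fun v => (sq_pos1 v).ne').contMDiff.comp h.sΦ
  exact (sm_smul a hφ).sub (sm_smul ((a.pow 3).mul (Wrd81.sm_inner h.sΦ hφ)) h.sΦ)

section der
variable {α : Y → Fm κ β.m.A} {φ : Y → β.m.V}

variable (D β α φ) in
/-- the variation of a word -/
def dy (u : List (YL Y)) : Y → β.m.V :=
  vw D.F (cn β) opL α (nP β) (dn β φ) (u.map (ylt D.F β))

theorem dy_op (t : YL Y) (u : List (YL Y)) (ht : t ≠ .G) :
    dy D β α φ (t :: u) = sl D.F (cn β) (ylt D.F β t) (dy D β α φ u) := by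
  rcases t with f | (_ | g) | _ | _
  exacts [rfl, rfl, rfl, rfl, absurd rfl ht]

theorem dy_G (u : List (YL Y)) : dy D β α φ (.G :: u) = D.F.res (cn β) fun y =>
    dy D β α φ u y - dm D.F (cn β) (cn β) (rv opL α) (yw D.F β (.G :: u)) y := rfl

variable (h : YA D β) (hα : Sm I3 α) (hg : ∀ y a, α y a ∈ β.m.gS y) (hφ : Sm I3 φ)
include h hφ

theorem sm_dy {u : List (YL Y)} (hu : WK I3 u) : Sm I3 (dy D β α φ u) :=
  sm_vw (h.sm_dn hφ) (h.oks hu)

include hα hg

theorem ip_dy {u : List (YL Y)} (hu : WK I3 u) {l : Y → β.m.V} (hl : Sm I3 l) :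
    (Sm I3 fun y => ⟪ywA D.F β u l y, α y⟫_ℝ + ⟪ywP D.F β u l y, φ y⟫_ℝ) ∧
    ∫ y, (⟪ywA D.F β u l y, α y⟫_ℝ + ⟪ywP D.F β u l y, φ y⟫_ℝ) ∂D.F.μ =
      ∫ y, ⟪l y, dy D β α φ u y⟫_ℝ ∂D.F.μ := by
  have a : Sm I3 (ywA D.F β u l) := (cls h.rh).sm_gc h.rh.mc.sm (h.oks hu) hl
  have b := (cls h.rh).bk (h.oks hu) hl
  simp only [ywP, inner_dn]
  exact ⟨(Wrd81.sm_inner a hα).add (Wrd81.sm_inner b (h.sm_dn hφ)),
    (integral_add (int_inner a hα) (int_inner b (h.sm_dn hφ))).trans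
      (int_vw h.rh hα (fun y a => (hg y a).1) h.sm_nP (h.sm_dn hφ) (h.oks hu) hl)⟩

theorem gram_dy {T : Pk Y lam} (hT : Sm I3 (pk β T)) {u v : List (YL Y)} (hu : WK I3 u)
    (hv : WK I3 v) (h0 : ∀ f, Sm I3 f → ipg D (YF.sw D.F T (.mul f :: u) v) β α φ = 0) (y : Y) :
    ⟪pk β T y (yw D.F β v y), dy D β α φ u y⟫_ℝ + ⟪pk β T y (yw D.F β u y), dy D β α φ v y⟫_ℝ = 0 := by
  have a := hT.clm_apply (h.sm_yw hv)
  refine zero_of_int (F := D.F) ((Wrd81.sm_inner a (sm_dy h hφ hu)).add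
    (Wrd81.sm_inner (hT.clm_apply (h.sm_yw hu)) (sm_dy h hφ hv))) (fun f hf => ?_) y
  have hu' := hu.cons (t := .mul f) hf
  have b := hT.clm_apply (h.sm_yw hu')
  obtain ⟨c1, c2⟩ := ip_dy h hα hg hφ hu' a
  obtain ⟨d1, d2⟩ := ip_dy h hα hg hφ hv b
  have i := fun {g : Y → ℝ} (hg : Sm I3 g) => hg.continuous.integrable_of_hasCompactSupport
    (μ := D.F.μ) (hcs g)
  have e := h0 f hf
  simp only [ipg, YF.sw, inner_add_left, add_add_add_comm ⟪ywA D.F β (.mul f :: u) _ _, _⟫_ℝ] at e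
  rw [integral_add (i c1) (i d1), c2, d2,
    ← integral_add (int_inner a (sm_dy h hφ hu')) (int_inner b (sm_dy h hφ hv))] at e
  refine Eq.trans (integral_congr_ae (.of_forall fun x => ?_)) e
  simp [dy_op (.mul f) u (by simp), sl, ylt, yw_mul, real_inner_smul_left, real_inner_smul_right,
    mul_add]

theorem p_dy (hp : ∀ y, β.m.p y (φ y) = φ y) {u : List (YL Y)} (hu : WK I3 u) :
    ∀ y, β.m.p y (dy D β α φ u y) = dy D β α φ u y := by
  induction u with
  | nil => exact fun y => by simp [dy, vw, dn, hp, h.pΦ]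
  | cons t u ih =>
    have ih := ih fun t ht => hu t (List.mem_cons_of_mem _ ht)
    by_cases ht : t = .G
    swap
    · rw [dy_op t u ht]; exact h.p_sl t ih
    subst ht
    have e : ∀ a y v, β.m.p y (rv opL α a y v) = rv opL α a y v := fun a y v =>
      congrArg (· v) (hg y a).2.1
    rw [dy_G]
    refine h.p_sl .G fun y => ?_
    simp only [dm, map_sub, map_neg, map_sum, map_add, map_smul, ih, e,
      ← h.pp.cov ((sm_rv hα _).clm_apply (h.sm_yw hu))]

end der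

theorem der : DerStmt D := by
  intro hD β hβ h0 ⟨⟨α, hα, _, pα⟩, ⟨φ, hφ, hc, pφ⟩⟩ hy
  have h := ya hD hβ
  have e1 : ∀ y a, ∑ b, D.F.P a b y • β.m.pg y (α y b) = α y a := fun y a =>
    (Wz78.idx_apply _ _ _ a).symm.trans (congrArg (· a) (pα y))
  have hg : ∀ y a, α y a ∈ β.m.gS y := fun y a =>
    e1 y a ▸ Submodule.sum_mem _ fun b _ => Submodule.smul_mem _ _ (Wz78.pg_mem y _)
  have hp : ∀ y, β.m.p y (φ y) = φ y := fun y => by
    have h2 := congrArg (· (φ y)) (Wz78.p_pp hβ.adm.ok (y, 0))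
    have h1 : (cy β).m.pp D.B (y, 0) (φ y) = φ y := pφ y
    simp only [mul_apply_eq_comp, h1] at h2
    exact h2
  have g1 := fun u hu v hv => gram_dy h hα hg hφ (T := .one) contMDiff_const (u := u) (v := v) hu hv
    fun f hf => hy (.sw ⟨(.mul f :: u, v), hu.cons hf, hv⟩) fun _ => by simp
  have g2 := fun u hu v hv s => gram_dy h hα hg hφ (T := .re fun _ => s) (h.sm_j s) (u := u) (v := v)
    hu hv fun f hf => hy (.re ⟨⟨_, .mul f :: u, v⟩, contMDiff_const, hu.cons hf, hv⟩) fun _ => by simp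
  let B : (β.m.V × β.m.V) →L[ℝ] (β.m.V × β.m.V) →L[ℝ] ℝ :=
    (innerSL ℝ).bilinearComp (ContinuousLinearMap.snd ℝ _ _) (ContinuousLinearMap.fst ℝ _ _) +
    (innerSL ℝ).bilinearComp (ContinuousLinearMap.fst ℝ _ _) (ContinuousLinearMap.snd ℝ _ _)
  have eB : ∀ x z, B x z = ⟪x.2, z.1⟫_ℝ + ⟪x.1, z.2⟫_ℝ := fun _ _ => rfl
  have k : Tw D β β (rv opL α) (dy D β α φ) B :=
    ⟨sm_rv hα, fun a y => by
      simp only [rv, ← map_smul, ← map_sum]
      conv_rhs => rw [← e1]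
      simp only [Wz78.pg_of_mem (hg y _)],
    fun a y v => ext_inner_right ℝ fun w => by
      rw [rv, (hg y a).1, h.pp.symm, ← mul_apply_eq_comp, (hg y a).2.1, (hg y a).1],
    fun a y s v => (congrArg (· v) ((hg y a).2.2.2.2 s)).symm, fun u hu => sm_dy h hφ hu,
    fun u hu => p_dy h hα hg hφ hp hu, dy_op, fun u hu => congrFun (lap1_res h.rh
      ((sm_dy h hφ hu).sub ((ad_dm h.rh.mc h.rh.mc (sm_rv hα)).sm _
        (h.sm_yw (hu.cons (t := .G) trivial))))),
    fun x z => by rw [eB, eB, add_comm, real_inner_comm z.1, real_inner_comm z.2],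
    fun y s a a' b b' => by simp only [eB, (h.pm y).jsym],
    fun u hu v hv y => (congrArg (· + _) (real_inner_comm _ _)).trans (g1 u hu v hv y),
    fun u hu v hv y s => (congrArg (· + _) (((h.pm y).jsym s _ _).trans
      (real_inner_comm _ _))).trans (g2 u hu v hv s y),
    fun y z hz _ a b => span_yw hD hβ h0 y hz
      (fun u hu => by simpa [eB, real_inner_comm z] using a u hu)
      fun u hu s => by simpa [eB, real_inner_comm z] using b u hu s⟩
  obtain ⟨T, sT, i, t0, tB, tp⟩ := k.exists hD hβ hβ h0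
  have sk : ∀ y, An.Skw (T y) := fun y a b => by
    have := tB y a b
    rw [eB, ← h.pp.symm, i y |>.pl, h.pp.symm, i y |>.pl] at this
    exact eq_neg_of_add_eq_zero_left this
  have sξ : Sm I3 fun y => hsL (T y) := hsL.contMDiff.comp sT
  refine ⟨⟨fun y => hsL (T y), sξ, hcs _, fun y => Wz78.pg_of_mem ?_⟩, funext fun y => ?_,
    funext fun y => ?_⟩
  · simp only [Md.gS, Submodule.mem_mk, AddSubmonoid.mem_mk, AddSubsemigroup.mem_mk, mem_ofPred_eq,
      Wz78.opL_hsL]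
    exact ⟨sk y, ContinuousLinearMap.ext (i y).pl, ContinuousLinearMap.ext fun v => ((i y).J v).symm,
      fun a => ContinuousLinearMap.ext fun v => ((i y).ρ a v).symm,
      fun s => ContinuousLinearMap.ext fun v => ((i y).j s v).symm⟩
  · ext1 a
    have e := congrArg hsL (eq_neg_of_add_eq_zero_right (tp a y))
    rw [rv, Wz78.hsL_opL] at e
    refine e.trans ((map_neg _ _).trans (congrArg Neg.neg ?_))
    rw [Wz78.nab, dv_clm hsL (md sT y), nT, add_sub_assoc, map_add, an, Md.adW, Wz78.adc_apply,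
      Wz78.opL_hsL]
    rfl
  · have e : T y (nP β y) = dn β φ y := t0 y
    have c := sq_pos1 (β.Φ y)
    have c2 : √(1 + ‖β.Φ y‖ ^ 2) ^ 2 = 1 + ‖β.Φ y‖ ^ 2 := Real.sq_sqrt (by positivity)
    have e2 := congrArg (⟪·, β.Φ y⟫_ℝ) e
    simp only [nP, dn, map_smul, real_inner_smul_left, Wz78.Skew.self (sk y), inner_sub_left,
      real_inner_self_eq_norm_sq, real_inner_comm (β.Φ y) (φ y)] at e e2
    have e3 : ⟪β.Φ y, φ y⟫_ℝ = 0 := by
      field_simp at e2
      rw [c2] at e2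
      linarith
    rw [e3, mul_zero, zero_smul, sub_zero] at e
    simp only [dgp, Wz78.opL_hsL]
    exact (smul_right_injective _ (inv_ne_zero c.ne') e).symm

theorem gram_eq (h : YA D β) (h' : YA D β') {T : Pk Y lam} (hT : Sm I3 (pk β T))
    (hT' : Sm I3 (pk β' T)) {u v : List (YL Y)} (hu : WK I3 u) (hv : WK I3 v)
    (h0 : ∀ f, Sm I3 f → (YF.sw D.F T (.mul f :: u) v).f β = (YF.sw D.F T (.mul f :: u) v).f β')
    (y : Y) : ⟪pk β T y (yw D.F β u y), yw D.F β v y⟫_ℝ -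
      ⟪pk β' T y (yw D.F β' u y), yw D.F β' v y⟫_ℝ = 0 := by
  refine zero_of_int (F := D.F) ((Wrd81.sm_inner (hT.clm_apply (h.sm_yw hu)) (h.sm_yw hv)).sub
    (Wrd81.sm_inner (hT'.clm_apply (h'.sm_yw hu)) (h'.sm_yw hv))) (fun f hf => ?_) y
  have hu' := hu.cons (t := .mul f) hf
  have e := sub_eq_zero.2 (h0 f hf)
  simp only [YF.sw] at e
  rw [← integral_sub (int_inner (hT.clm_apply (h.sm_yw hu')) (h.sm_yw hv))
    (int_inner (hT'.clm_apply (h'.sm_yw hu')) (h'.sm_yw hv))] at e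
  simpa [yw_mul, real_inner_smul_left, mul_sub] using e

theorem sep : SepStmt D := by
  intro hD β β' hβ hβ' h0 hy
  have h := ya hD hβ
  have h' := ya hD hβ'
  have g1 := fun u hu v hv => gram_eq h h' (T := .one) contMDiff_const contMDiff_const
    (u := u) (v := v) hu hv fun f hf => hy (.sw ⟨(.mul f :: u, v), hu.cons hf, hv⟩) fun _ => by simp
  have g2 := fun u hu v hv s => gram_eq h h' (T := .re fun _ => s) (h.sm_j s) (h'.sm_j s)
    (u := u) (v := v) hu hv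
    fun f hf => hy (.re ⟨⟨_, .mul f :: u, v⟩, contMDiff_const, hu.cons hf, hv⟩) fun _ => by simp
  let B : (β.m.V × β'.m.V) →L[ℝ] (β.m.V × β'.m.V) →L[ℝ] ℝ :=
    (innerSL ℝ).bilinearComp (ContinuousLinearMap.fst ℝ _ _) (ContinuousLinearMap.fst ℝ _ _) -
    (innerSL ℝ).bilinearComp (ContinuousLinearMap.snd ℝ _ _) (ContinuousLinearMap.snd ℝ _ _)
  have eB : ∀ x z, B x z = ⟪x.1, z.1⟫_ℝ - ⟪x.2, z.2⟫_ℝ := fun _ _ => rfl
  have k : Tw D β β' (fun _ _ => 0) (yw D.F β') B :=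
    ⟨fun _ => contMDiff_const, fun _ _ => by simp, fun _ _ _ => rfl, fun _ _ _ _ => by simp,
    fun u hu => h'.sm_yw hu, fun u _ => h'.p_yw u, fun _ _ _ => rfl, fun u hu y => by
      rw [dm_zero, Pi.zero_apply, sub_zero]; exact congrFun (lap1_res h'.rh (h'.sm_yw hu)) y,
    fun x z => by rw [eB, eB, real_inner_comm z.1, real_inner_comm z.2],
    fun y s a a' b b' => by simp only [eB, (h.pm y).jsym, (h'.pm y).jsym],
    g1, fun u hu v hv y s => g2 u hu v hv s y, fun y z _ a _ _ => by simpa [eB] using a⟩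
  obtain ⟨T, sT, i, t0, tB, tp⟩ := k.exists hD hβ hβ' h0
  have is : ∀ y a b, ⟪T y a, T y b⟫_ℝ = ⟪β.m.p y a, b⟫_ℝ := fun y a b => by
    have : ⟪β.m.p y a, β.m.p y b⟫_ℝ - ⟪T y a, T y b⟫_ℝ = 0 := tB y a b
    rw [← sub_eq_zero.1 this, ← h.pp.symm, h.idem]
  have uu : ∀ y, trn (T y) ∘L T y = β.m.p y := fun y => ContinuousLinearMap.ext fun a =>
    ext_inner_right ℝ fun b => by
      rw [ContinuousLinearMap.comp_apply, ContinuousLinearMap.adjoint_inner_left, is]
  refine ⟨fun x => T x.1, 1, ⟨(sm_fst sT).contMDiffOn, fun x _ => uu x.1, fun x _ => ?_,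
    fun x _ => ContinuousLinearMap.ext (i x.1).J, fun x _ b => ?_, fun x _ s => ?_⟩,
    fun x _ a => ?_, fun x _ => ?_, PiLp.ext fun i => i.elim0⟩
  · have P := pmx hβ.adm.ok (x.1, 0)
    have : T x.1 ∘L trn (T x.1) = (hs (T x.1) (T x.1) / 16) • β'.m.p x.1 :=
      (itx_norm hD.ok.B P (pmx hβ'.adm.ok (x.1, 0)) (A := T x.1) (i x.1)).2
    rw [show hs (T x.1) (T x.1) = 16 by rw [← (h.pm x.1).prk, ← uu, hs]; rfl, div_self (by norm_num),
      one_smul] at this
    exact this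
  · exact (ContinuousLinearMap.ext fun v => ((i x.1).ρ b v).symm).trans
      (congrArg (T x.1 ∘L ·) ((hβ.adm.ok.cl x).proj b).symm)
  · exact (congrArg (· ∘L T x.1) ((h'.pm x.1).jl s)).trans
      (ContinuousLinearMap.ext fun v => ((i x.1).j s v).symm)
  · have e : ∑ b, D.B.P b a x • β'.W b x.1 = β'.W a x.1 := by
      simp only [(hD.ok.B.pr x).symm _ a]; exact hβ'.adm.conn.cc.proj a x
    change (cylP D.F.toPre).D a (fun x => T x.1) x + (∑ b, D.B.P b a x • β'.W b x.1) ∘L T x.1 -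
      T x.1 ∘L β.W a x.1 = 0
    rw [e]
    cases a with
    | none => simp [D_none_fst _ sT, hβ.tmp, hβ'.tmp]
    | some a => rw [D_some_fst _ sT]; exact (add_zero _).symm.trans (tp a x.1)
  · have e : T x.1 (nP β x.1) = nP β' x.1 := t0 x.1
    have c := sq_pos1 (β.Φ x.1)
    have e2 := is x.1 (nP β x.1) (nP β x.1)
    rw [e] at e2
    simp only [nP, map_smul, h.pΦ, real_inner_self_eq_norm_sq, norm_smul, mul_pow, Real.norm_eq_abs,
      sq_abs, inv_pow] at e e2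
    have e3 : ‖β'.Φ x.1‖ ^ 2 = ‖β.Φ x.1‖ ^ 2 := by
      rw [Real.sq_sqrt (by positivity), Real.sq_sqrt (by positivity)] at e2
      field_simp at e2
      linarith
    rw [e3] at e
    exact ((Eqv71.cs_one _ _).trans (smul_right_injective _ (inv_ne_zero c.ne') e)).symm

end Crest.Agent.X212.Der92
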