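import Crest.Agent.X212.Der92.Bal

/-!
# Row 212, CRIT-DERI (helper92), part 4: variations which preserve the Gram functions of words
-/

set_option autoImplicit false
set_option linter.unusedSectionVars false
noncomputable section
open scoped Manifold ContDiff Topology InnerProductSpace
open MeasureTheory Set Function Filter

namespace Crest.Agent.X212.Der92
open An Sob92 Wrd81 Nt92 Dgr80

variable {E : Type} [NormedAddCommGroup E] [NormedSpace ℝ E] [FiniteDimensional ℝ E]
  [MeasurableSpace E] [BorelSpace E]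
  {HM : Type} [TopologicalSpace HM] {I : ModelWithCorners ℝ E HM} [I.Boundaryless]
  {M : Type} [TopologicalSpace M] [ChartedSpace HM M] [IsManifold I ∞ M]
  [MeasurableSpace M] [T2Space M] [BorelSpace M] [SecondCountableTopology M]
  {ι : Type} [Fintype ι] {F : Fr I M ι}

section add
variable {V U : Type} [NormedAddCommGroup V] [InnerProductSpace ℝ V] [CompleteSpace V]
  [NormedAddCommGroup U] [InnerProductSpace ℝ U] [CompleteSpace U]
  {A : ι → M → CL V V} {Q : (M → V) → Prop} (h : Dgr80.Cls F A Q) (hB : Mp86.Bumps I F.e F.dv)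
  (hA : Mp86.Mc I A)
include h hB hA

theorem slT_addQ (a : SL M V) {s t : M → V} (hs : Q s) (ht : Q t) :
    slT F A a (fun x => s x + t x) = fun x => slT F A a s x + slT F A a t x := by
  cases a
  exacts [funext fun x => map_add _ _ _, Mp86.res_add hB hA ⟨_, h.res _ hs⟩ ⟨_, h.res _ ht⟩]

theorem bk_addQ : ∀ {w : List (SL M V)} {s t : M → V}, (∀ a ∈ w, a.Ok Q) → Q s → Q t →
    bk F A w (fun x => s x + t x) = fun x => bk F A w s x + bk F A w t x
  | [], _, _, _, _, _ => rfl
  | a :: w, _, _, hw, hs, ht => by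
    simp only [bk]
    rw [slT_addQ h hB hA a hs ht]
    exact bk_addQ (fun b hb => hw b (by simp [hb])) (h.slT (hw a (by simp)) hs)
      (h.slT (hw a (by simp)) ht)

theorem gc_addQ (r : CL U (CL V V)) (l : M → V) : ∀ {w : List (SL M V)} {s t : M → V},
    (∀ a ∈ w, a.Ok Q) → Q s → Q t →
    gc F A r l w (fun x => s x + t x) = fun x => gc F A r l w s x + gc F A r l w t x
  | [], _, _, _, _, _ => funext fun _ => (add_zero _).symm
  | .op S :: w, _, _, hw, hs, ht => by
    simp only [gc]
    rw [slT_addQ h hB hA _ hs ht]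
    exact gc_addQ r l (fun b hb => hw b (by simp [hb])) (h.slT (hw _ (by simp)) hs)
      (h.slT (hw _ (by simp)) ht)
  | .G :: w, s, t, hw, hs, ht => by
    simp only [gc]
    rw [Mp86.res_add hB hA ⟨_, h.res _ hs⟩ ⟨_, h.res _ ht⟩,
      gc_addQ r l (fun b hb => hw b (by simp [hb])) (h.G _ hs) (h.G _ ht)]
    funext x
    have : ∀ u, cur F A r u (fun x => F.res A s x + F.res A t x) x
        = cur F A r u (F.res A s) x + cur F A r u (F.res A t) x := fun u => by
      refine PiLp.ext fun a => ?_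
      have e := Sob92.dv_add (e := F.e a) (md (Mp86.sm_res F A s) x) (md (Mp86.sm_res F A t) x)
      simp only [cur, Wz78.nab, PiLp.add_apply, tp, map_add, add_apply]
      erw [e]
      simp only [map_add]
      abel
    rw [this, add_sub_add_comm]

end add

variable [CompactSpace M] {V : Type} [NormedAddCommGroup V] [InnerProductSpace ℝ V]
  [FiniteDimensional ℝ V] {A : ι → M → V →L[ℝ] V} {p : M → V →L[ℝ] V} {α : ι → M → V →L[ℝ] V}

theorem dm_add (hα : ∀ a, Sm I (α a)) {u v : M → V} (hu : Sm I u) (hv : Sm I v) (x : M) :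
    dm F A A α (fun y => u y + v y) x = dm F A A α u x + dm F A A α v x := by
  have e : ∀ {u v : M → V} a, Sm I u → Sm I v → cov F.toPre A a (fun y => u y + v y) x =
      cov F.toPre A a u x + cov F.toPre A a v x := fun a hu hv => by
    simp only [cov, Pre.D, map_add]
    erw [Sob92.dv_add (md hu x) (md hv x)]
    abel
  simp only [dm, map_add, e _ hu hv, e _ ((hα _).clm_apply hu) ((hα _).clm_apply hv), smul_add,
    ← neg_add, ← Finset.sum_add_distrib]
  congr 1
  exact Finset.sum_congr rfl fun a _ => by abel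

/-- **A variation `α` of the connection which is compensated on all Gram functions of a spanning
family of words is orthogonal to the divergence free fields.** -/
theorem var_tr (h : RH F A) (hp : PP F A p) (hα : ∀ a, Sm I (α a))
    (hPα : ∀ a x, ∑ b, F.P a b x • α b x = α a x) {W : Type} (n : W → M → V)
    (Λ : W → (M → V) → ℝ) (sp : ∀ w, Sp I p (n w))
    (add : ∀ w l l', Sp I p l → Sp I p l' → Λ w (fun x => l x + l' x) = Λ w l + Λ w l')
    (mul : ∀ w (f : M → ℝ), Sm I f → ∃ w', n w' = (fun x => f x • n w x) ∧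
      ∀ l, Sp I p l → Λ w' l = Λ w fun x => f x • l x)
    (G : ∀ w, ∃ w', n w' = F.res A (n w) ∧ ∀ l, Sp I p l → Λ w' l = Λ w (F.res A l) -
      ∫ x, ⟪dm F A A α (n w') x, F.res A l x⟫_ℝ ∂F.μ)
    (sk : ∀ w w', Λ w (n w') + Λ w' (n w) = 0)
    (span : ∀ x v, p x v = v → (∀ w, ⟪n w x, v⟫_ℝ = 0) → v = 0)
    {κ : Type} [Fintype κ] (e : OrthonormalBasis κ ℝ V) {η : ι → M → V →L[ℝ] V}
    (hη : ∀ a, Sm I (η a)) (h1 : ∀ a x v, p x (η a x (p x v)) = η a x (p x v))
    (h0 : ∀ x, ∑ a, (nT F A A a (η a) x + F.dv a x • η a x) = 0) :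
    ∑ a, ∑ i, ∫ x, ⟪α a x (p x (e i)), η a x (p x (e i))⟫_ℝ ∂F.μ = 0 := by
  classical
  have := FiniteDimensional.complete ℝ V
  obtain ⟨S, hS, hU⟩ := exists_frm hp.sm hp.symm hp.idem (𝒩 := range n)
    (by rintro _ ⟨w, rfl⟩; exact (sp w).1) fun x v a b => span x v a fun w => b _ ⟨w, rfl⟩
  choose σ hσ using fun m : S => hS m.2
  let φ : S → (M → V) → M → ℝ := fun m l x => ⟪m.1 x, Ring.inverse (frm p S x) (l x)⟫_ℝ
  have sm : ∀ m : S, Sp I p m.1 := fun m => hσ m ▸ sp _
  have sφ : ∀ m {l}, Sp I p l → Sm I (φ m l) := fun m l hl =>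
    Wrd81.sm_inner (sm m).1 (ContMDiff.clm_apply (fun y => by
      obtain ⟨T, hT⟩ := hU y
      exact (hT ▸ (contDiffAt_ringInverse ℝ T).contMDiffAt).comp y
        (sm_frm hp.sm (fun m hm => (sm ⟨m, hm⟩).1) y)) hl.1)
  have ex : ∀ {l}, Sp I p l → l = fun x => ∑ m, φ m l x • m.1 x := fun {l} hl => funext fun x => by
    have a1 : frm p S x (Ring.inverse (frm p S x) (l x)) = l x := by
      rw [← mul_apply_eq_comp, Ring.mul_inverse_cancel _ (hU x)]; rfl
    rw [← hl.2 x, ← a1, frm_apply, map_add, map_sub, hp.idem, sub_self, add_zero, map_sum,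
      ← Finset.sum_coe_sort]
    exact Finset.sum_congr rfl fun m _ => by rw [map_smul, (sm m).2]
  have ind : ∀ {P : (M → V) → Prop}, P (fun _ => 0) →
      (∀ u v, Sp I p u → Sp I p v → P u → P v → P fun x => u x + v x) → ∀ {l}, Sp I p l →
      (∀ m, P fun x => φ m l x • m.1 x) → P l := fun {P} a b l hl c => by
    rw [ex hl]
    have := Finset.sum_induction (s := Finset.univ) (fun m : S => fun x => φ m l x • m.1 x)
      (fun u => Sp I p u ∧ P u) (fun u v hu hv => ⟨hu.1.add hv.1, b u v hu.1 hv.1 hu.2 hv.2⟩)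
      ⟨Sp.zero, a⟩ fun m _ => ⟨(sm m).smul (sφ m hl), c m⟩
    convert this.2 using 2 with x
    rw [Finset.sum_apply]
  let B : (M → V) → (M → V) → ℝ := fun u l => -∑ m, Λ (σ m) fun x => φ m l x • u x
  have hB : Bf I p B := ⟨fun {u u' v} a b c => by
      simp only [B, smul_add, add _ _ _ (a.smul (sφ _ c)) (b.smul (sφ _ c)), Finset.sum_add_distrib,
        neg_add],
    fun {u v v'} a b c => by
      simp only [B, φ, map_add, inner_add_right, add_smul, ← neg_add, ← Finset.sum_add_distrib]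
      exact congrArg _ (Finset.sum_congr rfl fun m _ =>
        add _ _ _ (a.smul (sφ _ b)) (a.smul (sφ _ c))),
    fun {f u v} _ _ _ => by simp only [B, φ, map_smul, real_inner_smul_right, smul_smul, mul_comm]⟩
  have z : ∀ w, Λ w (fun _ => 0) = 0 := fun w => by simpa using add w _ _ Sp.zero Sp.zero
  have BΛ : ∀ w l, Sp I p l → B (n w) l = Λ w l := fun w l hl => by
    have e1 : ∀ m, -Λ (σ m) (fun x => φ m l x • n w x) = Λ w fun x => φ m l x • m.1 x := fun m => by
      obtain ⟨w', a, b⟩ := mul w _ (sφ m hl)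
      rw [← a, ← b _ (sm m), ← hσ m]
      linarith [sk (σ m) w']
    simp only [B, ← Finset.sum_neg_distrib, e1]
    conv_rhs => rw [ex hl]
    induction (Finset.univ : Finset S) using Finset.induction_on with
    | empty => exact (z w).symm
    | insert m s hm ih =>
      simp only [Finset.sum_insert hm]
      rw [add _ _ _ ((sm m).smul (sφ m hl)) (Sp.sum _ fun m _ => (sm m).smul (sφ m hl)), ih]
  have sd := (ad_dm (F := F) h.mc h.mc hα).sm
  refine hB.tr hp h.mc e (fun a u v => hB.par hp h.mc.sm h.proj hα hPα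
    (c := fun u v => ∫ x, ⟪dm F A A α u x, v x⟫_ℝ ∂F.μ) (fun u v hu hv => ?_)
    (fun f u v hf hu hv => ?_) a) hη h1 h0
  · have hL := hv.lap1 hp h.mc.sm
    conv_lhs => enter [2]; rw [← res_lap1 h hu.1]
    conv_rhs => rw [← res_lap1 h hu.1]
    refine ind (P := fun u => B u v - B (F.res A u) (lap1 F A v) =
      ∫ x, ⟪dm F A A α (F.res A u) x, v x⟫_ℝ ∂F.μ) ?_ (fun u u' a b c d => ?_)
      (hu.lap1 hp h.mc.sm) fun m => ?_
    · have : F.res A (fun _ => 0) = fun _ => 0 := Mp86.res_zero h.bmp h.mc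
      simp [this, hB.zero hv, hB.zero hL, dm, cov, Pre.D, dv_const]
    · have a' := a.res hp h
      have b' := b.res hp h
      simp only [Mp86.res_add h.bmp h.mc ⟨_, isRes_res h a.1⟩ ⟨_, isRes_res h b.1⟩,
        dm_add hα a'.1 b'.1, inner_add_left]
      rw [hB.l a b hv, hB.l a' b' hL, integral_add (int_inner (sd _ a'.1) hv.1)
        (int_inner (sd _ b'.1) hv.1), ← c, ← d]
      ring
    · obtain ⟨w, a, -⟩ := mul (σ m) _ (sφ m (hu.lap1 hp h.mc.sm))
      obtain ⟨w', b, c⟩ := G w
      rw [hσ] at a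
      rw [← a, ← b, BΛ _ _ hv, BΛ _ _ hL, c _ hL, res_lap1 h hv.1]
      ring
  · rw [← integral_sub (int_inner (sd _ (hu.smul hf).1) hv.1) (int_inner (sd _ hu.1) (hv.smul hf).1),
      ← integral_const_mul]
    simp only [dm_smul hα hf hu.1, inner_sub_left, real_inner_smul_left, real_inner_smul_right,
      sum_inner]
    congr 1
    funext x
    ring

end Crest.Agent.X212.Der92
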