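import Crest.Agent.X212.Der92.Fld
import Mathlib.Analysis.Complex.Polynomial.Basic
import Mathlib.Algebra.Polynomial.SpecificDegree
import Mathlib.LinearAlgebra.Eigenspace.Charpoly

/-!
# Row 212, CRIT-DERI (helper92), part 1: balanced forms, Schur's lemma
-/

set_option autoImplicit false
set_option linter.unusedSectionVars false
noncomputable section
open scoped Manifold ContDiff Topology InnerProductSpace
open MeasureTheory Set Function Filter

namespace Crest.Agent.X212.Der92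
open An Sob92 Wrd81 Nt92 Dgr80

/-- the projection onto the closure of a subspace `W ⊆ L W` commutes weakly with `L` -/
theorem prj_L {S H : Type*} [AddCommGroup S] [Module ℝ S] [NormedAddCommGroup H]
    [InnerProductSpace ℝ H] [CompleteSpace H] (j : S →ₗ[ℝ] H) (L : S →ₗ[ℝ] S)
    (hs : ∀ a b, ⟪j (L a), j b⟫_ℝ = ⟪j a, j (L b)⟫_ℝ) (hp : ∀ a, ‖j a‖ ≤ ‖j (L a)‖)
    {W : Set S} (hW : ∀ a ∈ W, ∃ a' ∈ W, L a' = a) (a b : S) :
    ⟪(cl (j '' W)).starProjection (j (L a)), j b⟫_ℝ =
      ⟪(cl (j '' W)).starProjection (j a), j (L b)⟫_ℝ := by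
  set U := cl (j '' W)
  let W₁ : Submodule ℝ S := U.comap j ⊓ U.comap (j ∘ₗ L)
  let e : W₁ →ₗ[ℝ] U := ((j ∘ₗ L).domRestrict W₁).codRestrict U fun w => w.2.2
  have hm : ∀ a ∈ W, j a ∈ U := fun a ha => mem_cl ⟨a, ha, rfl⟩
  have he : DenseRange e := by
    rw [DenseRange, Subtype.dense_iff]
    intro x hx
    have := cl_le (U := (LinearMap.range (U.subtype ∘ₗ e)).topologicalClosure)
      (Submodule.isClosed_topologicalClosure _) (by
        rintro _ ⟨a, ha, rfl⟩
        obtain ⟨a', h1, rfl⟩ := hW a ha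
        exact subset_closure ⟨⟨a', hm _ h1, hm _ ha⟩, rfl⟩) hx
    rwa [← SetLike.mem_coe, Submodule.topologicalClosure_coe, LinearMap.coe_range,
      LinearMap.coe_comp, range_comp] at this
  let f : W₁ →ₗ[ℝ] U := (j.domRestrict W₁).codRestrict U fun w => w.2.1
  have hb : ∀ w, ‖f w‖ ≤ 1 * ‖e w‖ := fun w => by rw [one_mul]; exact hp w
  have h1 : ∀ (x : U) b, ⟪(f.extendOfNorm e x : H), j (L b)⟫_ℝ = ⟪(x : H), j b⟫_ℝ := fun x b => by
    refine he.induction_on x (isClosed_eq (by fun_prop) (by fun_prop)) fun w => ?_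
    rw [LinearMap.extendOfNorm_eq he ⟨1, hb⟩]
    exact (hs w b).symm
  have h2 : ∀ x ∈ U, ∀ y, ⟪U.starProjection y, x⟫_ℝ = ⟪y, x⟫_ℝ := fun x hx y => by
    rw [U.inner_starProjection_left_eq_right, Submodule.starProjection_eq_self_iff.2 hx]
  let x : U := ⟨_, U.starProjection_apply_mem (j (L a))⟩
  have h3 : U.starProjection (j a) = f.extendOfNorm e x := by
    refine Submodule.eq_starProjection_of_mem_of_inner_eq_zero (f.extendOfNorm e x).2 fun w hw => ?_
    refine (Submodule.mem_orthogonal_singleton_iff_inner_right).1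
      (cl_le (Submodule.isClosed_orthogonal _) ?_ hw)
    rintro _ ⟨v, hv, rfl⟩
    obtain ⟨v', h4, rfl⟩ := hW v hv
    refine Submodule.mem_orthogonal_singleton_iff_inner_right.2 ?_
    rw [inner_sub_left, h1, h2 _ (hm _ h4), hs, sub_self]
  rw [h3, h1]

theorem eig3 {S : Type*} [AddCommGroup S] [Module ℝ S] [FiniteDimensional ℝ S]
    (h : Module.finrank ℝ S = 3) (T : S →ₗ[ℝ] S) : ∃ (μ : ℝ) (v : S), v ≠ 0 ∧ T v = μ • v := by
  have h1 : T.charpoly.natDegree = 3 := T.charpoly_natDegree.trans h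
  have h2 : T.charpoly.roots ≠ 0 := fun k => by
    have := ((Polynomial.irreducible_iff_roots_eq_zero_of_degree_le_three (by omega)
      (by omega)).2 k).natDegree_le_two
    omega
  obtain ⟨μ, hμ⟩ := Multiset.exists_mem_of_ne_zero h2
  obtain ⟨v, hv⟩ := ((Module.End.hasEigenvalue_iff_isRoot_charpoly T μ).2
    (Polynomial.isRoot_of_mem_roots hμ)).exists_hasEigenvector
  exact ⟨μ, v, hv.2, hv.apply_eq_smul⟩

variable {E : Type} [NormedAddCommGroup E] [NormedSpace ℝ E] [FiniteDimensional ℝ E]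
  [MeasurableSpace E] [BorelSpace E]
  {HM : Type} [TopologicalSpace HM] {I : ModelWithCorners ℝ E HM} [I.Boundaryless]
  {M : Type} [TopologicalSpace M] [ChartedSpace HM M] [IsManifold I ∞ M]
  [MeasurableSpace M] [T2Space M] [BorelSpace M] [SecondCountableTopology M] [CompactSpace M]
  {ι : Type} [Fintype ι]
  {V : Type} [NormedAddCommGroup V] [InnerProductSpace ℝ V] [FiniteDimensional ℝ V]
  {N : Type} [NormedAddCommGroup N] [InnerProductSpace ℝ N]
  {F : Fr I M ι} {A : ι → M → V →L[ℝ] V} {p : M → V →L[ℝ] V}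

theorem bdd_of_sm {N : Type} [NormedAddCommGroup N] [NormedSpace ℝ N] {u : M → N} (hu : Sm I u) :
    ∃ C, ∀ x, ‖u x‖ ≤ C :=
  let ⟨C, h⟩ := isCompact_univ.exists_bound_of_continuousOn hu.continuous.continuousOn
  ⟨C, fun x => h x trivial⟩

theorem res_lap1 (h : RH F A) {u : M → V} (hu : Sm I u) : F.res A (lap1 F A u) = u :=
  Mp86.res_eq h.bmp h.mc (isRes_lap1 hu (hcs u))

theorem res_par (h : RH F A) {T : M → V →L[ℝ] V} (hT : Sm I T)
    (hp : ∀ a x, F.D a T x = T x * A a x - A a x * T x) {u : M → V} (hu : Sm I u) :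
    F.res A (fun x => T x (u x)) = fun x => T x (F.res A u x) :=
  Mp86.res_eq h.bmp h.mc (Mp86.isRes_map h.mc.sm hT (bdd_of_sm hT)
    (fun x a => (congrArg (· + _) (hp a x)).trans (sub_add_cancel _ _)) (isRes_res h hu))

/-- **Schur's lemma** -/
theorem schur (h : RH F A) (hp : PP F A p) (hi : Irr F A univ p) {y : M}
    (h3 : Module.finrank ℝ (p y).range = 3) {T : M → V →L[ℝ] V} (hT : Sm I T)
    (par : ∀ a x, F.D a T x = T x * A a x - A a x * T x) (h1 : ∀ x v, p x (T x v) = T x v) :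
    ∃ μ : ℝ, ∀ x v, T x (p x v) = μ • p x v := by
  obtain ⟨μ, v, v0, hv⟩ := eig3 h3 (((p y ∘L trL (T y) : V →L[ℝ] V) : V →ₗ[ℝ] V).restrict
    (p := (p y).range) (q := (p y).range) fun v _ => ⟨_, rfl⟩)
  have pv : p y v = v := by obtain ⟨_, w, rfl⟩ := v; exact hp.idem y w
  have hv' : p y (trL (T y) v) = μ • (v : V) := congrArg Subtype.val hv
  let R : M → V →L[ℝ] V := fun x => T x * p x - μ • p x
  have sR : Sm I R := (hT.clm_comp hp.sm).sub (sm_smul contMDiff_const hp.sm)
  have pR : ∀ a x, F.D a R x = R x * A a x - A a x * R x := fun a x => by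
    have e1 : F.D a (fun x => T x * p x) x = F.D a T x * p x + T x * F.D a p x :=
      dv_bil (ContinuousLinearMap.mul ℝ _) (md hT x) (md hp.sm x)
    have e2 : F.D a R x = F.D a (fun x => T x * p x) x - μ • F.D a p x :=
      (dv_sub (md (hT.clm_comp hp.sm) x) (md (sm_smul contMDiff_const hp.sm) x)).trans
        (congrArg _ (dv_const_smul μ (md hp.sm x)))
    rw [e2, e1, par, hp.par]
    simp only [R, sub_mul, mul_sub, mul_assoc, smul_sub, smul_mul_assoc, mul_smul_comm]
    abel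
  have c : Fam univ univ F A {w | ∃ u, Sm I u ∧ w = fun x => R x (u x)} :=
    ⟨isClopen_univ, isOpen_univ, Subset.rfl, by simp, by rintro _ ⟨u, hu, rfl⟩; exact sR.clm_apply hu,
      by rintro f hf _ ⟨u, hu, rfl⟩; exact ⟨_, sm_smul hf.sm hu, by simp only [map_smul]⟩,
      by rintro _ ⟨u, hu, rfl⟩; exact ⟨_, Mp86.sm_res _ _ _, res_par h sR pR hu⟩⟩
  obtain ⟨π, k⟩ := c.exists_prj h
  rcases hi π k.pp (fun x v => (k.le isOpen_univ hp.sm hp.symm (by
    rintro _ ⟨u, -, rfl⟩ x; simp [R, h1, hp.idem]) x v).2) with e | e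
  · refine ⟨μ, fun x v => ?_⟩
    have := k.fix _ ⟨fun _ => v, contMDiff_const, rfl⟩ x trivial
    rw [e x trivial] at this
    exact sub_eq_zero.1 this.symm
  · refine (v0 (Subtype.ext (pv.symm.trans ((congrArg (· v.1) (e y trivial)).symm.trans
      (prj_pt c h k ?_))))).elim
    rintro _ ⟨u, -, rfl⟩
    simp only [R, sub_apply, mul_apply_eq_comp, smul_apply, inner_sub_right, real_inner_smul_right]
    rw [real_inner_comm, inner_trL, hp.symm, hv', ← hp.symm, pv, real_inner_smul_right,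
      real_inner_comm, sub_self]

/-! ### vector fields -/

theorem P_P (F : Fr I M ι) (a c : ι) (x : M) : ∑ b, F.P a b x * F.P b c x = F.P a c x :=
  let ⟨g, _, e⟩ := exists_tf_D F (univ_mem : univ ∈ 𝓝 x) c
  by simpa only [e, smul_eq_mul, F.P_symm c] using P_D F g a x

/-- the gradients generate all vector fields -/
theorem frame_ind {Q : (ι → M → ℝ) → Prop} (h0 : Q fun _ _ => 0)
    (ha : ∀ X X', (∀ a, Sm I (X a)) → (∀ a, Sm I (X' a)) → Q X → Q X' → Q fun a x => X a x + X' a x)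
    (hs : ∀ g X, Sm I g → (∀ a, Sm I (X a)) → Q X → Q fun a x => g x * X a x)
    (hg : ∀ f : M → ℝ, Sm I f → Q fun a => F.D a f) (a : ι) : Q (F.P a) := by
  have sa : ∀ {X : M → Fm ι ℝ}, Sm I X → ∀ a, Sm I fun x => X x a := fun hX a =>
    (PiLp.proj 2 (fun _ : ι => ℝ) a : Fm ι ℝ →L[ℝ] ℝ).contMDiff.comp hX
  let W : Submodule ℝ (M → Fm ι ℝ) :=
    { carrier := {X | Sm I X ∧ Q fun a x => X x a}
      add_mem' := fun h k => ⟨h.1.add k.1, ha _ _ (sa h.1) (sa k.1) h.2 k.2⟩
      zero_mem' := ⟨contMDiff_const, h0⟩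
      smul_mem' := fun r _ h => ⟨sm_smul contMDiff_const h.1, hs _ _ contMDiff_const (sa h.1) h.2⟩ }
  refine (mem_of_span (W := W) (O := univ)
    (q := fun x => idx (fun a b => F.P a b x) (ContinuousLinearMap.id ℝ ℝ))
    (𝒩 := {X | ∃ f : M → ℝ, Sm I f ∧ X = fun x => WithLp.toLp 2 fun a => F.D a f x})
    (u := fun x => WithLp.toLp 2 fun b => F.P a b x)
    (Std94.Kl.idx (K := Std94.smAll I) F.P_sm contMDiff_const)
    (fun x => Wz78.inner_idx (fun a b => F.P_symm a b x) fun _ _ => rfl)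
    (fun x v => by rw [Wz78.idx_idx]; simp only [P_P]; rfl) ?_ ?_ isOpen_univ ?_
    (fun x _ v hv h => ?_) (sm_toLp (F.P_sm a)) (hcs _) (subset_univ _) fun x => ?_).2
  · rintro _ ⟨f, hf, rfl⟩; exact sm_toLp fun a => F.sm_D hf a
  · rintro _ ⟨f, hf, rfl⟩ x; ext b; simpa using P_D F f b x
  · rintro g hg' - - _ ⟨f, hf, rfl⟩
    exact ⟨sm_smul hg' (sm_toLp fun a => F.sm_D hf a), hs _ _ hg' (F.sm_D hf) (hg f hf)⟩
  · ext b
    obtain ⟨g, h1, e⟩ := exists_tf_D F (univ_mem : univ ∈ 𝓝 x) b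
    have := h _ ⟨g, h1.sm, rfl⟩
    rw [← hv]
    simpa [PiLp.inner_apply, e, mul_comm] using this
  · ext b
    simpa [F.P_symm a] using P_P F b a x

variable (F) in
/-- divergence -/
def dX (X : ι → M → ℝ) : M → ℝ := fun x => ∑ a, (F.D a (X a) x + F.dv a x * X a x)

theorem sm_dX {X : ι → M → ℝ} (hX : ∀ a, Sm I (X a)) : Sm I (dX F X) :=
  sm_sum _ fun a => (F.sm_D (hX a) a).add ((F.dv_sm a).mul (hX a))

theorem dX_mul {X : ι → M → ℝ} (hX : ∀ a, Sm I (X a)) {g : M → ℝ} (hg : Sm I g) (x : M) :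
    dX F (fun a x => g x * X a x) x = g x * dX F X x + ∑ a, X a x * F.D a g x := by
  have e : ∀ a, F.D a (fun x => g x * X a x) x = F.D a g x * X a x + g x * F.D a (X a) x :=
    fun a => dv_smul (md hg x) (md (hX a) x)
  simp only [dX, e, Finset.mul_sum, ← Finset.sum_add_distrib]
  exact Finset.sum_congr rfl fun a _ => by ring

theorem int_sm {f : M → ℝ} (hf : Sm I f) : Integrable f F.μ :=
  hf.continuous.integrable_of_hasCompactSupport (hcs f)

theorem int_dX {X : ι → M → ℝ} (hX : ∀ a, Sm I (X a)) : ∫ x, dX F X x ∂F.μ = 0 := by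
  have i := fun a => int_sm (F := F) (F.sm_D (hX a) a)
  have i' := fun a => int_sm (F := F) (f := fun x => F.dv a x * X a x) ((F.dv_sm a).mul (hX a))
  simp only [dX]
  rw [integral_finsetSum _ fun a _ => (i a).fun_add (i' a)]
  exact Finset.sum_eq_zero fun a _ => by
    rw [integral_add (i a) (i' a), F.ibp a _ (hX a) (hcs _), neg_add_cancel]

theorem dX_P (a : ι) (x : M) : dX F (F.P a) x = F.dv a x := by
  refine sub_eq_zero.1 (zero_of_int (F := F) ((sm_dX (F.P_sm a)).sub (F.dv_sm a)) (fun f hf => ?_) x)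
  have e := int_dX (F := F) fun b => hf.mul (F.P_sm a b)
  have e1 : ∀ x, ∑ b, F.P a b x * F.D b f x = F.D a f x := P_D F f a
  have i1 := int_sm (F := F) (hf.mul (sm_dX (F := F) (F.P_sm a)))
  simp only [Pi.mul_def, dX_mul (F.P_sm a) hf, e1] at e i1
  rw [integral_add i1 (int_sm (F.sm_D hf a)), F.ibp a f hf (hcs f)] at e
  simp only [mul_sub]
  rw [integral_sub i1 (int_sm (f := fun x => f x * F.dv a x) (hf.mul (F.dv_sm a)))]
  simpa only [mul_comm, sub_eq_add_neg] using e

/-! ### balanced forms -/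

variable (I p) in
/-- smooth sections -/
def Sp (u : M → V) : Prop := Sm I u ∧ ∀ x, p x (u x) = u x

variable {u u' v : M → V} {f : M → ℝ} {B c : (M → V) → (M → V) → ℝ} {α : ι → M → V →L[ℝ] V}

theorem Sp.add (h : Sp I p u) (k : Sp I p v) : Sp I p fun x => u x + v x :=
  ⟨h.1.add k.1, fun x => by rw [map_add, h.2, k.2]⟩

theorem Sp.smul (h : Sp I p u) (hf : Sm I f) : Sp I p fun x => f x • u x :=
  ⟨sm_smul hf h.1, fun x => by rw [map_smul, h.2]⟩

theorem Sp.zero : Sp I p fun _ => 0 := ⟨contMDiff_const, fun _ => map_zero _⟩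

theorem Sp.sum {κ : Type*} (s : Finset κ) {w : κ → M → V} (h : ∀ i ∈ s, Sp I p (w i)) :
    Sp I p fun x => ∑ i ∈ s, w i x :=
  ⟨contMDiff_finsetSum fun i hi => (h i hi).1, fun x => by
    rw [map_sum]; exact Finset.sum_congr rfl fun i hi => (h i hi).2 x⟩

theorem Sp.cov (h : Sp I p u) (hp : PP F A p) (hA : ∀ a, Sm I (A a)) (a : ι) :
    Sp I p (cov F.toPre A a u) :=
  ⟨sm_cov _ hA h.1 a, fun x => by rw [← hp.cov h.1]; simp only [h.2]⟩

theorem Sp.lap1 (h : Sp I p u) (hp : PP F A p) (hA : ∀ a, Sm I (A a)) : Sp I p (lap1 F A u) :=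
  ⟨sm_lap1 _ hA h.1, fun x => by rw [← hp.lap1 hA h.1]; simp only [h.2]⟩

theorem Sp.res (h : Sp I p u) (hp : PP F A p) (k : RH F A) : Sp I p (F.res A u) :=
  ⟨Mp86.sm_res _ _ _, fun x => by
    rw [← congrFun (res_par k hp.sm hp.par h.1) x]; simp only [h.2]⟩

variable (I p) in
/-- balanced biadditive forms on smooth sections -/
structure Bf (B : (M → V) → (M → V) → ℝ) : Prop where
  l : ∀ {u u' v}, Sp I p u → Sp I p u' → Sp I p v → B (fun x => u x + u' x) v = B u v + B u' v
  r : ∀ {u v v'}, Sp I p u → Sp I p v → Sp I p v' → B u (fun x => v x + v' x) = B u v + B u v'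
  bal : ∀ {f : M → ℝ} {u v}, Sm I f → Sp I p u → Sp I p v →
    B (fun x => f x • u x) v = B u fun x => f x • v x

namespace Bf
variable (h : Bf I p B)
include h

theorem flip : Bf I p fun u v => B v u :=
  ⟨fun a b c => h.r c a b, fun a b c => h.l b c a, fun a b c => (h.bal a c b).symm⟩

theorem zero (hv : Sp I p v) : B (fun _ => 0) v = 0 := by
  simpa using h.l Sp.zero Sp.zero hv

theorem sum {κ : Type*} (s : Finset κ) {w : κ → M → V} (k : ∀ i ∈ s, Sp I p (w i))
    (hv : Sp I p v) : B (fun x => ∑ i ∈ s, w i x) v = ∑ i ∈ s, B (w i) v := by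
  classical
  induction s using Finset.induction_on with
  | empty => exact h.zero hv
  | insert i s hi ih =>
    have k' := fun j hj => k j (Finset.mem_insert_of_mem hj)
    simp only [Finset.sum_insert hi]
    rw [h.l (k i (Finset.mem_insert_self _ _)) (Sp.sum s k') hv, ih k']

theorem of_add (hu : Sp I p u) (hu' : Sp I p u') (hv : Sp I p v) {w : M → V}
    (e : ∀ x, w x = u x + u' x) : B w v = B u v + B u' v := by
  rw [funext e, h.l hu hu' hv]

/-- **Commutation with the Laplacian gives commutation with the covariant derivatives.** -/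
theorem par (hp : PP F A p) (hA : ∀ a, Sm I (A a))
    (hP : ∀ a x, ∑ b, F.P a b x • A b x = A a x) (hα : ∀ a, Sm I (α a))
    (hPα : ∀ a x, ∑ b, F.P a b x • α b x = α a x)
    (hR : ∀ u v, Sp I p u → Sp I p v → B (lap1 F A u) v - B u (lap1 F A v) = c u v)
    (hc : ∀ f u v, Sm I f → Sp I p u → Sp I p v → c (fun x => f x • u x) v - c u (fun x => f x • v x) =
      -2 * ∫ x, ∑ a, F.D a f x * ⟪α a x (u x), v x⟫_ℝ ∂F.μ) (a : ι) (hu : Sp I p u) (hv : Sp I p v) :
    B (cov F.toPre A a u) v + B u (cov F.toPre A a v) + B (fun x => F.dv a x • u x) v =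
      ∫ x, ⟪α a x (u x), v x⟫_ℝ ∂F.μ := by
  have s : ∀ {X : ι → M → ℝ} {u}, (∀ a, Sm I (X a)) → Sp I p u →
      Sp I p fun x => ∑ a, X a x • cov F.toPre A a u x := fun hX hu =>
    Sp.sum _ fun a _ => (hu.cov hp hA a).smul (hX a)
  have i : ∀ {X : ι → M → ℝ} {u v}, (∀ a, Sm I (X a)) → Sp I p u → Sp I p v →
      Integrable (fun x => ∑ a, X a x * ⟪α a x (u x), v x⟫_ℝ) F.μ := fun hX hu hv =>
    int_sm (sm_sum _ fun a => (hX a).mul (Wrd81.sm_inner ((hα a).clm_apply hu.1) hv.1))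
  have := frame_ind (F := F) (Q := fun X => ∀ u v, Sp I p u → Sp I p v →
    B (fun x => ∑ a, X a x • cov F.toPre A a u x) v + B u (fun x => ∑ a, X a x • cov F.toPre A a v x) +
      B (fun x => dX F X x • u x) v = ∫ x, ∑ a, X a x * ⟪α a x (u x), v x⟫_ℝ ∂F.μ)
    (fun u v hu hv => by simp [dX, Pre.D, h.zero hv, h.flip.zero hu])
    (fun X X' hX hX' a b u v hu hv => ?_) (fun g X hg hX a u v hu hv => ?_)
    (fun f hf u v hu hv => ?_) a u v hu hv
  · have e : ∀ (w : M → V) x, ∑ b, F.P a b x • cov F.toPre A b w x = cov F.toPre A a w x := fun w x => by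
      simp only [cov, smul_add, Finset.sum_add_distrib, P_D]
      rw [← hP a x]; simp
    have e' : ∀ x, ∑ b, F.P a b x * ⟪α b x (u x), v x⟫_ℝ = ⟪α a x (u x), v x⟫_ℝ := fun x => by
      rw [← hPα a x]; simp [sum_inner, real_inner_smul_left]
    simpa only [e, e', dX_P] using this
  · have e : ∀ x, dX F (fun a x => X a x + X' a x) x = dX F X x + dX F X' x := fun x => by
      have := fun a => congrFun (F.D_add (hX a) (hX' a) a) x
      simp only [Pi.add_def] at this
      simp only [dX, this, mul_add, Finset.sum_add_distrib]; ring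
    simp only [e, add_smul, add_mul, Finset.sum_add_distrib]
    rw [h.l (s hX hu) (s hX' hu) hv, h.r hu (s hX hv) (s hX' hv),
      h.l (hu.smul (sm_dX hX)) (hu.smul (sm_dX hX')) hv, integral_add (i hX hu hv) (i hX' hu hv),
      ← a u v hu hv, ← b u v hu hv]
    ring
  · have := a _ v (hu.smul hg) hv
    have t : Sm I fun x => ∑ a, X a x * F.D a g x := sm_sum _ fun a => (hX a).mul (F.sm_D hg a)
    rw [h.bal hg hu (s hX hv), h.of_add (s (fun a => hg.mul (hX a)) hu) (hu.smul t) hv fun x => by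
      simp only [cov_smul _ A hg hu.1, smul_add, Finset.sum_add_distrib, smul_smul, Finset.sum_smul,
        Pi.mul_apply, mul_comm (g x)]
      rw [add_comm]] at this
    rw [h.of_add ((hu.smul hg).smul (sm_dX hX)) (hu.smul t) hv (w := fun x => dX F _ x • u x)
      fun x => by rw [dX_mul hX hg, add_smul, smul_smul, mul_comm]]
    simp only [Pi.mul_apply, Finset.smul_sum, smul_smul, map_smul, real_inner_smul_left,
      mul_left_comm (X _ _), ← mul_assoc] at this ⊢
    linarith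
  · have k : ∀ {B}, Bf I p B → ∀ {u v}, Sp I p u → Sp I p v → B (fun x => f x • lap1 F A u x) v =
        B (lap1 F A fun x => f x • u x) v + 2 * B (fun x => ∑ a, F.D a f x • cov F.toPre A a u x) v +
          B (fun x => dX F (fun a => F.D a f) x • u x) v := fun h u v hu hv => by
      have s1 := s (F.sm_D hf) hu
      have s2 := (hu.smul hf).lap1 hp hA
      rw [two_mul, ← h.l s1 s1 hv, ← h.l s2 (s1.add s1) hv]
      refine h.of_add (s2.add (s1.add s1)) (hu.smul (sm_dX (F.sm_D hf))) hv fun x => ?_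
      rw [lap1_smul F hA hf hu.1, dX]; module
    have e1 := k h hu hv
    have e2 := k h.flip hv hu
    have e3 := hR _ _ (hu.smul hf) hv
    have e4 := hR _ _ hu (hv.smul hf)
    have e5 := h.bal hf hu (hv.lap1 hp hA)
    have e6 := h.bal hf (hu.lap1 hp hA) hv
    have e7 := h.bal (sm_dX (F := F) (F.sm_D hf)) hu hv
    linarith [hc f u v hf hu hv]

/-- the trace of a weakly parallel form against a divergence free field -/
theorem tr (hp : PP F A p) (hA : Mp86.Mc I A) {κ : Type} [Fintype κ] (e : OrthonormalBasis κ ℝ V)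
    (hB : ∀ a u v, Sp I p u → Sp I p v → B (cov F.toPre A a u) v + B u (cov F.toPre A a v) +
      B (fun x => F.dv a x • u x) v = ∫ x, ⟪α a x (u x), v x⟫_ℝ ∂F.μ)
    {η : ι → M → V →L[ℝ] V} (hη : ∀ a, Sm I (η a))
    (h1 : ∀ a x v, p x (η a x (p x v)) = η a x (p x v))
    (h0 : ∀ x, ∑ a, (nT F A A a (η a) x + F.dv a x • η a x) = 0) :
    ∑ a, ∑ i, ∫ x, ⟪α a x (p x (e i)), η a x (p x (e i))⟫_ℝ ∂F.μ = 0 := by
  have sE : ∀ i, Sp I p fun x => p x (e i) := fun i =>
    ⟨hp.sm.clm_apply contMDiff_const, fun x => hp.idem x _⟩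
  have sη : ∀ a {u}, Sp I p u → Sp I p fun x => η a x (u x) := fun a u hu =>
    ⟨(hη a).clm_apply hu.1, fun x => by simpa only [hu.2] using h1 a x (u x)⟩
  have sw : ∀ a i j, Sm I fun x => ⟪e j, A a x (e i)⟫_ℝ := fun a i j =>
    Wrd81.sm_inner contMDiff_const ((hA.sm a).clm_apply contMDiff_const)
  have c1 : ∀ a i, cov F.toPre A a (fun x => p x (e i)) =
      fun x => ∑ j, ⟪e j, A a x (e i)⟫_ℝ • p x (e j) := fun a i => funext fun x => by
    rw [hp.cov contMDiff_const]
    simp only [← map_smul, ← map_sum, e.sum_repr', cov, Pre.D, dv_const, Pi.zero_apply, zero_add]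
  have sN : ∀ a i, Sp I p fun x => (nT F A A a (η a) x + F.dv a x • η a x) (p x (e i)) := fun a i => by
    have := (((sη a (sE i)).cov hp hA.sm a).add ((sη a ((sE i).cov hp hA.sm a)).smul
      (contMDiff_const (c := -1)))).add ((sη a (sE i)).smul (F.dv_sm a))
    simpa [cov_app (A := A) (hη a) (sE i).1] using this
  have k : ∀ a, ∑ i, ∫ x, ⟪α a x (p x (e i)), η a x (p x (e i))⟫_ℝ ∂F.μ =
      ∑ i, B (fun x => p x (e i)) fun x => (nT F A A a (η a) x + F.dv a x • η a x) (p x (e i)) := by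
    intro a
    have z : ∑ i, (B (cov F.toPre A a fun x => p x (e i)) (fun x => η a x (p x (e i))) +
        B (fun x => p x (e i)) fun x => η a x (cov F.toPre A a (fun x => p x (e i)) x)) = 0 := by
      have s2 := fun i j k => (sη a (sE k)).smul (sw a i j)
      simp only [c1, map_sum, map_smul, Finset.sum_add_distrib,
        fun i => h.sum Finset.univ (fun j _ => (sE j).smul (sw a i j)) (sη a (sE i)),
        fun i j => h.bal (sw a i j) (sE j) (sη a (sE i)),
        fun i => h.flip.sum Finset.univ (fun j _ => s2 i j j) (sE i)]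
      rw [Finset.sum_comm, ← Finset.sum_add_distrib]
      refine Finset.sum_eq_zero fun i _ => ?_
      rw [← Finset.sum_add_distrib]
      refine Finset.sum_eq_zero fun j _ => ?_
      rw [← h.r (sE i) (s2 j i j) (s2 i j j), ← h.flip.zero (sE i)]
      congr 1; funext x
      rw [← add_smul, real_inner_comm, hA.sk, neg_add_cancel, zero_smul]
    rw [← zero_add (∑ i, B _ _), ← z, ← Finset.sum_add_distrib]
    refine Finset.sum_congr rfl fun i _ => ?_
    rw [← hB a _ _ (sE i) (sη a (sE i)), h.bal (F.dv_sm a) (sE i) (sη a (sE i)), add_assoc, add_assoc,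
      ← h.r (sE i) ((sη a (sE i)).cov hp hA.sm a) ((sη a (sE i)).smul (F.dv_sm a)),
      ← h.r (sE i) (sη a ((sE i).cov hp hA.sm a)) (sN a i)]
    simp only [cov_app (A := A) (hη a) (sE i).1, add_apply, smul_apply, add_assoc]
  simp only [k]
  rw [Finset.sum_comm]
  refine Finset.sum_eq_zero fun i _ => ?_
  rw [← h.flip.sum Finset.univ (fun a _ => sN a i) (sE i), ← h.flip.zero (sE i)]
  simp only [← sum_apply, h0, zero_apply]

end Bf

/-! ### bounded operators -/

open Classical in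
/-- the class of a smooth function -/
def jH (F : Pre I M ι) (u : M → N) : F.H 0 (triv M N) :=
  if h : Sm I u then F.toH 0 _ ⟨u, mem_tst h (hcs u)⟩ else 0

section jH
variable {F : Pre I M ι} {u v : M → N}

theorem jH_eq (hu : Sm I u) : jH F u = F.toH 0 _ ⟨u, mem_tst hu (hcs u)⟩ := dif_pos hu

theorem jH_coe (u : Sec I (triv M N)) : jH F u.1 = F.toH 0 _ u := jH_eq u.2.1

theorem inner_jH (hu : Sm I u) (hv : Sm I v) : ⟪jH F u, jH F v⟫_ℝ = ∫ x, ⟪u x, v x⟫_ℝ ∂F.μ := by
  rw [jH_eq hu, jH_eq hv, F.inner_toH]; rfl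

theorem jH_add (hu : Sm I u) (hv : Sm I v) : jH F (fun x => u x + v x) = jH F u + jH F v := by
  rw [jH_eq hu, jH_eq hv, ← map_add]; exact jH_eq (hu.add hv)

theorem jH_smul (hu : Sm I u) (r : ℝ) : jH F (fun x => r • u x) = r • jH F u := by
  rw [jH_eq hu, ← map_smul]; exact jH_eq (sm_smul contMDiff_const hu)

theorem jH_rep {N' : Type} [NormedAddCommGroup N'] [InnerProductSpace ℝ N']
    {R : F.H 0 (triv M N) →L[ℝ] F.H 0 (triv M N')} {T : (M → N) → M → N'} (h : F.Rep R T)
    (hu : Sm I u) : R (jH F u) = jH F (T u) := by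
  rw [jH_eq hu, RepT_toH h, ← jH_coe]

end jH

theorem pp_one : PP F A (triv M V) :=
  ⟨contMDiff_const, fun _ _ _ => rfl, fun _ _ => rfl, fun a x => by
    rw [Pre.D, dv_const]; ext; simp⟩

/-- a bounded operator which commutes with functions and, up to a balanced form, with the
Laplacian is a parallel field -/
theorem fld_of_bal (h : RH F A) {R : F.H 0 (triv M V) →L[ℝ] F.H 0 (triv M V)}
    (hb : ∀ (f : M → ℝ) u v, Sm I f → Sm I u → Sm I v → ⟪R (jH F.toPre fun x => f x • u x), jH F.toPre v⟫_ℝ =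
      ⟪R (jH F.toPre u), jH F.toPre fun x => f x • v x⟫_ℝ)
    (hR : ∀ u v, Sm I u → Sm I v → ⟪R (jH F.toPre (lap1 F A u)), jH F.toPre v⟫_ℝ -
      ⟪R (jH F.toPre u), jH F.toPre (lap1 F A v)⟫_ℝ = c u v)
    (hc : ∀ (f : M → ℝ) u v, Sm I f → Sm I u → Sm I v →
      c (fun x => f x • u x) v = c u fun x => f x • v x) :
    ∃ T : M → V →L[ℝ] V, Sm I T ∧ (∀ u, Sm I u → R (jH F.toPre u) = jH F.toPre fun x => T x (u x)) ∧
      ∀ a x, F.D a T x = T x * A a x - A a x * T x := by
  let B : (M → V) → (M → V) → ℝ := fun u v => ⟪R (jH F.toPre u), jH F.toPre v⟫_ℝ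
  have b : Bf I (triv M V) B :=
    ⟨fun a b _ => by simp only [B, jH_add a.1 b.1, map_add, inner_add_left],
      fun _ a b => by simp only [B, jH_add a.1 b.1, inner_add_right],
      fun a b c => hb _ _ _ a b.1 c.1⟩
  have s : ∀ {u : M → V}, Sm I u → Sp I (triv M V) u := fun hu => ⟨hu, fun _ => rfl⟩
  have k := fun a u v (hu : Sm I u) (hv : Sm I v) => b.par (α := fun _ _ => 0) pp_one h.mc.sm h.proj
    (fun _ => contMDiff_const) (by simp) (fun u v a b => hR u v a.1 b.1)
    (fun f u v a b c => by simp [hc f u v a b.1 c.1]) a (s hu) (s hv)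
  simp only [zero_apply, inner_zero_left, integral_zero] at k
  have sc := fun {u : M → V} (hu : Sm I u) a => sm_cov F.toPre h.mc.sm hu a
  have l : ∀ {B}, Bf I (triv M V) B → ∀ {u v}, Sm I u → Sm I v → B u v = B (lap1 F A u) v +
      ∑ a, (B (cov F.toPre A a (cov F.toPre A a u)) v +
        B (fun x => F.dv a x • cov F.toPre A a u x) v) := fun b u v hu hv => by
    have s1 := fun a => s (sc (sc hu a) a)
    have s2 := fun a => s (sm_smul (F.dv_sm a) (sc hu a))
    simp only [← fun a => b.l (s1 a) (s2 a) (s hv)]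
    rw [← b.sum _ (fun a _ => (s1 a).add (s2 a)) (s hv)]
    exact b.of_add (s (sm_lap1 F h.mc.sm hu)) (Sp.sum _ fun a _ => (s1 a).add (s2 a)) (s hv)
      fun x => (sub_add_cancel _ _).symm
  have e : ∀ u v, Sm I u → Sm I v → B (lap1 F A u) v = B u (lap1 F A v) := fun u v hu hv => by
    have e1 := l b hu hv
    have e2 := l b.flip hv hu
    have e3 : ∑ a, (B (cov F.toPre A a (cov F.toPre A a u)) v +
        B (fun x => F.dv a x • cov F.toPre A a u x) v) = ∑ a, (B u (cov F.toPre A a (cov F.toPre A a v)) +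
        B u fun x => F.dv a x • cov F.toPre A a v x) := Finset.sum_congr rfl fun a _ => by
      linarith [k a _ _ (sc hu a) hv, k a _ _ hu (sc hv a), b.bal (F.dv_sm a) (s hu) (s (sc hv a))]
    linarith
  have g : ∀ {u}, Sm I u → h.rsd.G (jH F.toPre u) = jH F.toPre (F.res A u) := fun hu => by
    rw [jH_eq hu, jH_eq (Mp86.sm_res _ _ _)]
    exact h.rsd.hG _ _ (lap1_res h hu).symm
  have ext : ∀ {S T : F.H 0 (triv M V) →L[ℝ] F.H 0 (triv M V)}, (∀ u v, Sm I u → Sm I v →
      ⟪S (jH F.toPre u), jH F.toPre v⟫_ℝ = ⟪T (jH F.toPre u), jH F.toPre v⟫_ℝ) → ∀ x, S x = T x :=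
    fun k => DFunLike.congr_fun (Pre.clm_ext fun u => h.rsd.ext fun v => by
      have := k _ _ u.2.1 v.2.1
      rw [jH_coe, jH_coe] at this
      exact (real_inner_comm _ _).trans (this.trans (real_inner_comm _ _)))
  obtain ⟨T, hT, a1, a2⟩ := h.rsd.exists_field h.mc.sm h.proj isOpen_univ dense_univ (P := R)
    (ext (S := R ∘L h.rsd.G) (T := h.rsd.G ∘L R) fun u v hu hv => by
      have := e _ _ (Mp86.sm_res F A u) (Mp86.sm_res F A v)
      rw [lap1_res h hu, lap1_res h hv] at this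
      simp only [ContinuousLinearMap.comp_apply, h.rsd.symm, g hu, g hv]
      exact this.symm)
    fun f hf _ => ext (S := R ∘L h.rsd.mg hf sm_one) (T := h.rsd.mg hf sm_one ∘L R) fun u v hu hv => by
      have m : ∀ {u}, Sm I u → h.rsd.mg hf sm_one (jH F.toPre u) = jH F.toPre fun x => f x • u x :=
        fun hu => by rw [jH_eq hu, jH_eq (sm_smul hf.sm hu)]; exact h.rsd.mg_j hf sm_one _
      simp only [ContinuousLinearMap.comp_apply, h.rsd.mg_adj hf sm_one sm_one fun _ _ _ => rfl,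
        m hu, m hv]
      exact hb f u v hf.sm hu hv
  exact ⟨T, hT, fun u hu => by rw [jH_eq hu, jH_eq (hT.clm_apply hu)]; exact a1 _, a2⟩

end Crest.Agent.X212.Der92
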