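import Crest.Agent.X212.Der92.Bal
import Crest.Agent.X212.Spn45.Lift
import Crest.Agent.X212.Ten12.Sob
import Crest.Agent.X212.Cyc79.Cf

/-!
# Row 212, CRIT-DERI (helper92), part 2: equivariant fields on the cylinder
-/

set_option autoImplicit false
set_option linter.unusedSectionVars false
noncomputable section
open scoped Manifold ContDiff Topology InnerProductSpace
open MeasureTheory Set Function Filter

namespace Crest.Agent.X212.Der92
open An Sob92 Wrd81 Nt92 Cyf70 Cyc79 Spn45 Ten12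
open Nd18 (ca)

variable {E3 : Type} [NormedAddCommGroup E3] [NormedSpace ℝ E3] [FiniteDimensional ℝ E3]
  [MeasurableSpace E3] [BorelSpace E3]
  {H3 : Type} [TopologicalSpace H3] {I3 : ModelWithCorners ℝ E3 H3} [I3.Boundaryless]
  {Y : Type} [TopologicalSpace Y] [ChartedSpace H3 Y] [IsManifold I3 ∞ Y] [T2Space Y]
  [MeasurableSpace Y] [BorelSpace Y] [SecondCountableTopology Y] [CompactSpace Y]
  {κ : Type} [Fintype κ] {F : Fr I3 Y κ}

section sh
variable {V : Type} [NormedAddCommGroup V] [InnerProductSpace ℝ V]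
  {B : Option κ → Y × ℝ → V →L[ℝ] V} {w s : Y × ℝ → V}

theorem sm_sh {N : Type} [NormedAddCommGroup N] [NormedSpace ℝ N] {w : Y × ℝ → N}
    (hw : Sm (IC I3) w) (c : ℝ) : Sm (IC I3) fun x : Y × ℝ => w (x.1, x.2 + c) :=
  hw.comp (contMDiff_fst.prodMk (contMDiff_snd.add contMDiff_const))

theorem cd_sh (o : Option κ) (y : Y) (t c : ℝ) : (cyl F).dv o (y, t + c) = (cyl F).dv o (y, t) := by
  cases o <;> rfl

variable (hB : ∀ o y t c, B o (y, t + c) = B o (y, t))
include hB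

theorem cov_sh (hw : Sm (IC I3) w) (c : ℝ) (o : Option κ) :
    cov (cyl F).toPre B o (fun x => w (x.1, x.2 + c)) =
      fun x => cov (cyl F).toPre B o w (x.1, x.2 + c) := funext fun x => by
  rw [cov, cov, hB]; exact congrArg (· + _) (dv_sh hw c o x)

theorem isRes_sh (hs : ∀ o, Sm (IC I3) (B o)) (h : (cyl F).IsRes B s w) (c : ℝ) :
    (cyl F).IsRes B (fun x => s (x.1, x.2 + c)) fun x => w (x.1, x.2 + c) := by
  refine ⟨sm_sh h.1 c, h.2.1.imp fun _ k x => k _, fun x => (congrArg _ ?_).trans (h.2.2 _)⟩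
  change -∑ o, (cov (cyl F).toPre B o (cov (cyl F).toPre B o _) x + _ • cov (cyl F).toPre B o _ x) = _
  simp only [cov_sh hB h.1, fun o => cov_sh (F := F) hB (sm_cov (cyl F).toPre hs h.1 o)]
  exact congrArg _ (Finset.sum_congr rfl fun o _ => by rw [cd_sh]; rfl)

end sh

variable {σ : Type} [Fintype σ] [DecidableEq σ] {A : κ → Y → En σ}
  {K : Type} [NormedAddCommGroup K] [InnerProductSpace ℝ K] [CompleteSpace K]
  {U : ℝ → K →L[ℝ] K} {a b : Y × ℝ → Fm σ K}

/-- a group of isometries -/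
structure Grp (U : ℝ → K →L[ℝ] K) : Prop where
  add : ∀ s t k, U (t + s) k = U s (U t k)
  iso : ∀ s x y, ⟪U s x, U s y⟫_ℝ = ⟪x, y⟫_ℝ
  zero : ∀ k, U 0 k = k

/-- equivariant fields -/
def Eqv (U : ℝ → K →L[ℝ] K) (a : Y × ℝ → Fm σ K) : Prop :=
  ∀ y t s, a (y, t + s) = fb (U s) (a (y, t))

variable (I3 Y σ) in
/-- smooth equivariant fields -/
def SE (U : ℝ → K →L[ℝ] K) : Submodule ℝ (Y × ℝ → Fm σ K) where
  carrier := {a | Sm (IC I3) a ∧ Eqv U a}
  add_mem' h k := ⟨h.1.add k.1, fun y t s => by simp only [Pi.add_apply, h.2 y t s, k.2 y t s, map_add]⟩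
  zero_mem' := ⟨contMDiff_const, fun _ _ _ => by simp⟩
  smul_mem' r _ h := ⟨sm_smul contMDiff_const h.1, fun y t s => by
    simp only [Pi.smul_apply, h.2 y t s, map_smul]⟩

theorem Grp.inner_fb (h : Grp U) (s : ℝ) (v w : Fm σ K) : ⟪fb (U s) v, fb (U s) w⟫_ℝ = ⟪v, w⟫_ℝ := by
  simp only [PiLp.inner_apply, fb_apply, h.iso]

theorem ca_sh {N : Type} [NormedAddCommGroup N] [NormedSpace ℝ N] (A : κ → Y → N) (o : Option κ)
    (y : Y) (t c : ℝ) : ca A o (y, t + c) = ca A o (y, t) := by cases o <;> rfl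

theorem aA_sh (o : Option κ) (y : Y) (t c : ℝ) : aA K (ca A) o (y, t + c) = aA K (ca A) o (y, t) := by
  cases o <;> rfl

theorem mc_aA {E : Type} [NormedAddCommGroup E] [NormedSpace ℝ E] [FiniteDimensional ℝ E]
    [MeasurableSpace E] [BorelSpace E] {HM : Type} [TopologicalSpace HM]
    {I : ModelWithCorners ℝ E HM} [I.Boundaryless] {M : Type} [TopologicalSpace M]
    [ChartedSpace HM M] [IsManifold I ∞ M] [MeasurableSpace M] [T2Space M] [BorelSpace M]
    [SecondCountableTopology M] {ι : Type} [Fintype ι] {A : ι → M → En σ} (h : Mp86.Mc I A) :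
    Mp86.Mc I (aA K A) := ⟨sm_aA h.sm, fun a x => skew_amp (h.sk a x)⟩

theorem Eqv.smul (h : Eqv U a) (f : Y → ℝ) : Eqv U fun x => f x.1 • a x := fun y t s => by
  simp only [h y t s, map_smul]

theorem Eqv.res (h : Eqv U a) (hA : Mp86.Mc I3 A) (k : (cyl F).IsRes (aA K (ca A)) a b) :
    Eqv U b := fun y t s => by
  have m := mc_ca hA
  have e := isRes_sh aA_sh (sm_aA m.sm) k s
  simp only [fun x : Y × ℝ => h x.1 x.2 s] at e
  exact congrFun (Mp86.isRes_unique (bumps_cyl F) (mc_aA m) e (isRes_fb m.sm (U s) k)) (y, t)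

variable (hA : Mp86.Mc I3 A)
include hA

theorem SE.cov (h : a ∈ SE I3 Y σ U) (o : Option κ) :
    cov (cyl F).toPre (aA K (ca A)) o a ∈ SE I3 Y σ U :=
  ⟨sm_cov _ (sm_aA (mc_ca hA).sm) h.1 o, fun y t s => by
    have := congrFun (cov_sh (F := F) (aA_sh (A := A)) h.1 s o) (y, t)
    simp only [fun x : Y × ℝ => h.2 x.1 x.2 s] at this
    exact this.symm.trans (fb_nab (F := cyl F) h.1 (U s) o (y, t))⟩

omit hA in
theorem SE.dv (h : a ∈ SE I3 Y σ U) (o : Option κ) :
    (fun x => (cyl F).dv o x • a x) ∈ SE I3 Y σ U :=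
  ⟨sm_smul ((cyl F).dv_sm o) h.1, fun y t s => by simp only [cd_sh, h.2 y t s, map_smul]⟩

theorem SE.lap1 (h : a ∈ SE I3 Y σ U) : lap1 (cyl F) (aA K (ca A)) a ∈ SE I3 Y σ U := by
  convert sub_mem h (sum_mem (t := Finset.univ) fun o _ => add_mem (SE.cov (F := F) hA (SE.cov (F := F) hA h o) o)
    (SE.dv (F := F) (SE.cov (F := F) hA h o) o)) using 1
  funext x; simp [Wrd81.lap1]

omit hA in
theorem cov_some (h : Sm (IC I3) a) (k : κ) (y : Y) (t : ℝ) :
    cov (cyl F).toPre (aA K (ca A)) (some k) a (y, t) =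
      cov F.toPre (aA K A) k (fun z => a (z, t)) y := congrArg (· + _) (D_some F.toPre h k (y, t))

omit hA in
theorem cov_none (a : Y × ℝ → Fm σ K) :
    cov (cyl F).toPre (aA K (ca A)) none a = (cylP F.toPre).D none a :=
  funext fun x => by simp [cov, aA, ca, cyl_toPre]

omit hA in
theorem int0 (h : Sm (IC I3) a) (k : Sm (IC I3) b) :
    Integrable (fun y => ⟪a (y, 0), b (y, 0)⟫_ℝ) F.μ :=
  F.integrable_inner (sm_slice_fst h 0).continuous (hcs _) (sm_slice_fst k 0).continuous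

/-- integration by parts on the cross-section -/
theorem SE.ibp (hU : Grp U) (h : a ∈ SE I3 Y σ U) (k : b ∈ SE I3 Y σ U) (o : Option κ) :
    ∫ y, ⟪Wrd81.cov (cyl F).toPre (aA K (ca A)) o a (y, 0) + (cyl F).dv o (y, 0) • a (y, 0), b (y, 0)⟫_ℝ ∂F.μ =
      -∫ y, ⟪a (y, 0), Wrd81.cov (cyl F).toPre (aA K (ca A)) o b (y, 0)⟫_ℝ ∂F.μ := by
  cases o with
  | none =>
    rw [← integral_neg]
    refine integral_congr_ae (.of_forall fun y => ?_)
    have e := (hasDerivAt_slice F.toPre h.1 y 0).inner ℝ (hasDerivAt_slice F.toPre k.1 y 0)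
    have e' : (fun t => ⟪a (y, t), b (y, t)⟫_ℝ) = fun _ => ⟪a (y, 0), b (y, 0)⟫_ℝ := funext fun t => by
      rw [← zero_add t, h.2, k.2, hU.inner_fb]
    rw [e'] at e
    have := e.unique (hasDerivAt_const _ _)
    simp only [cov_none, show (cyl F).dv none (y, 0) = 0 from rfl, zero_smul, add_zero]
    linarith
  | some c =>
    have m := mc_aA (K := K) hA
    have s := sm_slice_fst h.1 0
    have s' := sm_slice_fst k.1 0
    have := ibp_cov F m.sm m.sk s (hcs _) s' c
    simp only [cov_some h.1, cov_some k.1, inner_add_left, real_inner_smul_left,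
      show ∀ y, (cyl F).dv (some c) (y, 0) = F.dv c y from fun _ => rfl]
    rw [integral_add (F.integrable_inner (sm_cov _ m.sm s c).continuous (hcs _) s'.continuous)
      (integrable_dv F s (hcs _) s' c)]
    linarith

theorem SE.dir (hU : Grp U) (h : a ∈ SE I3 Y σ U) (k : b ∈ SE I3 Y σ U) :
    ∫ y, ⟪Wrd81.lap1 (cyl F) (aA K (ca A)) a (y, 0), b (y, 0)⟫_ℝ ∂F.μ = ∫ y, ⟪a (y, 0), b (y, 0)⟫_ℝ ∂F.μ +
      ∑ o, ∫ y, ⟪Wrd81.cov (cyl F).toPre (aA K (ca A)) o a (y, 0),
        Wrd81.cov (cyl F).toPre (aA K (ca A)) o b (y, 0)⟫_ℝ ∂F.μ := by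
  have c := fun o => SE.cov (F := F) hA h o
  have i := fun o => int0 (F := F) (add_mem (SE.cov (F := F) hA (c o) o) (SE.dv (F := F) (c o) o)).1 k.1
  simp only [Wrd81.lap1, inner_sub_left, sum_inner, Pi.add_apply] at i ⊢
  rw [integral_sub (int0 h.1 k.1) (integrable_finsetSum _ fun o _ => i o),
    integral_finsetSum _ fun o _ => i o]
  simp only [fun o => SE.ibp (F := F) hA hU (c o) k o, Finset.sum_neg_distrib,
    sub_neg_eq_add]

variable (F U) in
omit hA in
/-- restriction to the cross-section -/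
def j0 : SE I3 Y σ U →ₗ[ℝ] F.H 0 (triv Y (Fm σ K)) where
  toFun a := jH F.toPre fun y => a.1 (y, 0)
  map_add' a b := jH_add (sm_slice_fst a.2.1 0) (sm_slice_fst b.2.1 0)
  map_smul' r a := jH_smul (sm_slice_fst a.2.1 0) r

omit hA in
theorem inner_j0 (a b : SE I3 Y σ U) :
    ⟪j0 F U a, j0 F U b⟫_ℝ = ∫ y, ⟪a.1 (y, 0), b.1 (y, 0)⟫_ℝ ∂F.μ :=
  inner_jH (sm_slice_fst a.2.1 0) (sm_slice_fst b.2.1 0)

variable (F U) in
/-- the operator `1 + ∇^*∇` of the cylinder -/
def L0 : SE I3 Y σ U →ₗ[ℝ] SE I3 Y σ U where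
  toFun a := ⟨lap1 (cyl F) (aA K (ca A)) a, SE.lap1 hA a.2⟩
  map_add' a b := Subtype.ext (funext fun x => by
    have := Mp86.lap_add (F := cyl F) (sm_aA (K := K) (mc_ca hA).sm) a.2.1 b.2.1 x
    change a.1 x + b.1 x - _ = a.1 x - _ + (b.1 x - _)
    rw [sub_eq_add_neg, sub_eq_add_neg, sub_eq_add_neg, add_add_add_comm]
    exact congrArg _ this)
  map_smul' r a := Subtype.ext (funext fun x => (lap1_smul (cyl F) (sm_aA (mc_ca hA).sm)
    (contMDiff_const (c := r)) a.2.1 x).trans (by simp [Pre.D]))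

theorem L0_symm (hU : Grp U) (a b : SE I3 Y σ U) :
    ⟪j0 F U (L0 F U hA a), j0 F U b⟫_ℝ = ⟪j0 F U a, j0 F U (L0 F U hA b)⟫_ℝ := by
  rw [real_inner_comm _ (j0 F U a), inner_j0, inner_j0]
  refine (SE.dir hA hU a.2 b.2).trans (Eq.trans ?_ (SE.dir hA hU b.2 a.2).symm)
  simp only [real_inner_comm]

theorem L0_pos (hU : Grp U) (a : SE I3 Y σ U) : ‖j0 F U a‖ ≤ ‖j0 F U (L0 F U hA a)‖ := by
  have h1 : ‖j0 F U a‖ ^ 2 ≤ ⟪j0 F U (L0 F U hA a), j0 F U a⟫_ℝ := by
    rw [← real_inner_self_eq_norm_sq, inner_j0, inner_j0]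
    exact ((le_add_of_nonneg_right (Finset.sum_nonneg fun o _ => integral_nonneg fun _ =>
      real_inner_self_nonneg))).trans (SE.dir hA hU a.2 a.2).ge
  nlinarith [real_inner_le_norm (j0 F U (L0 F U hA a)) (j0 F U a), norm_nonneg (j0 F U a),
    norm_nonneg (j0 F U (L0 F U hA a))]

/-! ### product fields -/

omit hA in
theorem amp_em (T : En σ) (h : K) (x : Eu σ) : amp K T (em h x) = em h (T x) :=
  ext_ct' fun k => by rw [ct_amp, ct_em, ct_em, map_smul]

omit hA in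
/-- product fields -/
def pr {h : K} (hU : Grp U) (hh : ContDiff ℝ ∞ fun t => U t h) {u : Y → Eu σ} (hu : Sm I3 u) :
    SE I3 Y σ U := ⟨fun x => em (U x.2 h) (u x.1),
  ((emL σ K).contMDiff.comp (sm_snd hh)).clm_apply (sm_fst hu), fun y t s => by
    rw [fb_em, ← hU.add]⟩

omit hA in
theorem j0_pr {h : K} (hU : Grp U) (hh : ContDiff ℝ ∞ fun t => U t h) {u : Y → Eu σ} (hu : Sm I3 u) :
    j0 F U (pr hU hh hu) = emH σ K F.toPre 0 h (jH F.toPre u) := by
  rw [jH_rep (rep_emH h) hu]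
  exact congrArg (jH F.toPre) (funext fun y => congrArg (em · (u y)) (hU.zero h))

theorem lap1_slice (h : Sm (IC I3) a) (y : Y) (t : ℝ) : lap1 (cyl F) (aA K (ca A)) a (y, t) =
    lap1 F (aA K A) (fun z => a (z, t)) y - deriv (deriv fun s => a (y, s)) t := by
  have s := fun o => sm_cov (cyl F).toPre (sm_aA (K := K) (mc_ca hA).sm) h o
  simp only [lap1, Fintype.sum_option, cov_some (s _), cov_some h, cov_none,
    D_none F.toPre ((cylP F.toPre).sm_D h none), D_none F.toPre h,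
    show (cyl F).dv none (y, t) = 0 from rfl, zero_smul, add_zero,
    show ∀ c, (cyl F).dv (some c) (y, t) = F.dv c y from fun _ => rfl]
  rw [add_comm, ← sub_sub]

theorem lap1_em (h : K) {u : Y → Eu σ} (hu : Sm I3 u) (y : Y) :
    lap1 F (aA K A) (fun z => em h (u z)) y = em h (lap1 F A u y) := by
  have e : ∀ {u : Y → Eu σ}, Sm I3 u → ∀ k, cov F.toPre (aA K A) k (fun z => em h (u z)) =
      fun z => em h (cov F.toPre A k u z) := fun hu k => funext fun z => by
    rw [cov, cov, map_add, aA, amp_em]; exact congrArg (· + _) (dv_clm _ (md hu z))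
  simp only [lap1, e hu, e (sm_cov _ hA.sm hu _), map_sub, map_sum, map_add, map_smul]

theorem j0_L0 {h : K} (hU : Grp U) (hh : ContDiff ℝ ∞ fun t => U t h) {u : Y → Eu σ} (hu : Sm I3 u) :
    j0 F U (L0 F U hA (pr hU hh hu)) = emH σ K F.toPre 0 h (jH F.toPre (lap1 F A u)) -
      emH σ K F.toPre 0 (deriv (deriv fun t => U t h) 0) (jH F.toPre u) := by
  have s := sm_lap1 F hA.sm hu
  rw [jH_rep (rep_emH _) s, jH_rep (rep_emH _) hu, sub_eq_add_neg, ← neg_one_smul ℝ,
    ← jH_smul (sm_clm _ hu), ← jH_add (sm_clm _ s) (sm_smul contMDiff_const (sm_clm _ hu))]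
  refine congrArg (jH F.toPre) (funext fun y => (lap1_slice hA (pr hU hh hu).2.1 y 0).trans ?_)
  have d : ∀ {g : ℝ → K}, ContDiff ℝ ∞ g → (deriv fun s => em (g s) (u y)) =
      fun s => em (deriv g s) (u y) := fun hg => funext fun s =>
    (((emL σ K).flip (u y)).hasFDerivAt.comp_hasDerivAt s
      (hg.differentiable (by simp) s).hasDerivAt).deriv
  simp only [pr, hU.zero, lap1_em hA h hu, d hh, d (contDiff_infty_iff_deriv.1 hh).2, neg_one_smul,
    sub_eq_add_neg]

/-- **Key lemma.**  A field which commutes with the irreducible projector `p` and maps a closed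
family of equivariant fields to its pointwise orthogonal complement kills the family. -/
theorem key (hU : Grp U) (h : RH F A) {p : Y → En σ} (hp : PP F A p) (hi : Irr F A univ p) {y₀ : Y}
    (h3 : Module.finrank ℝ (p y₀).range = 3) {W : Set (SE I3 Y σ U)}
    (w1 : ∀ a ∈ W, ∀ y, amp K (p y) (a.1 (y, 0)) = a.1 (y, 0))
    (w2 : ∀ a ∈ W, ∀ f : Y → ℝ, Sm I3 f → ∃ b ∈ W, b.1 = fun x => f x.1 • a.1 x)
    (w3 : ∀ a ∈ W, ∃ b ∈ W, L0 F U hA b = a) {S : Y → En σ} (hS : Sm I3 S)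
    (hc : ∀ y, S y * p y = p y * S y)
    (ho : ∀ a ∈ W, ∀ b ∈ W, ∀ y, ⟪amp K (S y) (a.1 (y, 0)), b.1 (y, 0)⟫_ℝ = 0) :
    ∀ a ∈ W, ∀ y, amp K (S y) (a.1 (y, 0)) = 0 := by
  let H := cl (j0 F U '' W)
  let P := H.starProjection
  let e := emH σ K F.toPre 0
  let c := ctH σ K F.toPre 0
  let m : (Y → En σ) → _ := fun T => mO F.toPre fun y => amp K (T y)
  have cb : ∀ {T : Y → En σ}, Sm I3 T → F.Cb fun y => amp K (T y) := fun hT =>
    Cb_clm _ (Cb_of_compact hT)
  have me : ∀ {T}, Sm I3 T → ∀ k z, m T (e k z) = e k (mO F.toPre T z) := fun hT k =>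
    DFunLike.congr_fun (RepT_eq (RepT_comp (rep_mulH (cb hT) (Maps.triv _)) (rep_emH k))
      (RepT_comp (rep_emH k) (rep_mulH (Cb_of_compact hT) (Maps.triv _))) fun u =>
      funext fun y => amp_em _ _ _)
  have cm : ∀ {T}, Sm I3 T → ∀ k z, c k (m T z) = mO F.toPre T (c k z) := fun hT k =>
    DFunLike.congr_fun (RepT_eq (RepT_comp (rep_ctH k) (rep_mulH (cb hT) (Maps.triv _)))
      (RepT_comp (rep_mulH (Cb_of_compact hT) (Maps.triv _)) (rep_ctH k)) fun u =>
      funext fun y => ct_amp _ _ _)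
  have mj : ∀ {T}, Sm I3 T → ∀ a, m T (j0 F U a) = jH F.toPre fun y => amp K (T y) (a.1 (y, 0)) :=
    fun hT a => jH_rep (rep_mulH (cb hT) (Maps.triv _)) (sm_slice_fst a.2.1 0)
  have mu : ∀ {T : Y → En σ} {u}, Sm I3 T → Sm I3 u →
      mO F.toPre T (jH F.toPre u) = jH F.toPre fun y => T y (u y) :=
    fun hT hu => jH_rep (rep_mulH (Cb_of_compact hT) (Maps.triv _)) hu
  have pm : ∀ {T : Y → En σ}, Sm I3 T → (∀ y v w, ⟪T y v, w⟫_ℝ = ⟪v, T y w⟫_ℝ) → (∀ a ∈ W, m T (j0 F U a) ∈ H) →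
      ∀ k k' z, c k' (P (e k (mO F.toPre T z))) = mO F.toPre T (c k' (P (e k z))) :=
    fun {T} hT hs hw k k' z => by
      have : ∀ x ∈ H, m T x ∈ H := fun x => map_cl (isClosed_cl _) (m T)
        (by rintro _ ⟨a, ha, rfl⟩; exact hw a ha)
      rw [← me hT, proj_comm H _ _ (mO_adj (cb hT) (cb hT) fun y => inner_amp (hs y)) this this, cm hT]
  have bal : ∀ k k' (f : Y → ℝ) u v, Sm I3 f → Sm I3 u → Sm I3 v →
      ⟪c k' (P (e k (jH F.toPre fun x => f x • u x))), jH F.toPre v⟫_ℝ =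
      ⟪c k' (P (e k (jH F.toPre u))), jH F.toPre fun x => f x • v x⟫_ℝ := fun k k' f u v hf hu hv => by
    have s : Sm I3 fun y => f y • (1 : En σ) := sm_smul hf contMDiff_const
    have s' : ∀ y (v w : Eu σ), ⟪(f y • (1 : En σ)) v, w⟫_ℝ = ⟪v, (f y • (1 : En σ)) w⟫_ℝ :=
      fun y v w => by simp [real_inner_smul_left, real_inner_smul_right]
    have := pm s s' (fun a ha => by
      obtain ⟨b, hb, e⟩ := w2 a ha f hf
      refine mem_cl ⟨b, hb, (mj s a).symm ▸ congrArg (jH F.toPre) (funext fun y => ?_)⟩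
      rw [e, amp_smul_one]; rfl) k k' (jH F.toPre u)
    rw [mu s hu] at this
    exact (congrArg (⟪·, _⟫_ℝ) this).trans ((mO_adj (Cb_of_compact s) (Cb_of_compact s) s' _ _).trans
      (congrArg _ (mu s hv)))
  have fx : ∀ x ∈ H, m p x = x := fun x hx => sub_eq_zero.1 (map_cl (U := ⊥) isClosed_singleton
    (m p - ContinuousLinearMap.id ℝ _) (by
      rintro _ ⟨a, ha, rfl⟩
      exact sub_eq_zero.2 ((mj hp.sm a).trans (congrArg (jH F.toPre) (funext (w1 a ha))))) hx)
  have inj : ∀ {u v : Y → Eu σ}, Sm I3 u → Sm I3 v → jH F.toPre u = jH F.toPre v → u = v :=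
    fun hu hv e => congrArg Subtype.val (h.rsd.j_inj ((jH_eq hu).symm.trans (e.trans (jH_eq hv))))
  have a1 : ∀ k k', ContDiff ℝ ∞ (fun t => U t k) → ContDiff ℝ ∞ (fun t => U t k') → ∀ z,
      c k' (P (e k (mO F.toPre S z))) = mO F.toPre S (c k' (P (e k z))) := fun k k' hk hk' => by
    obtain ⟨T, hT, t1, t2⟩ := fld_of_bal h (R := c k' ∘L P ∘L e k) (bal k k')
      (c := fun u v => ⟪c k' (P (e (deriv (deriv fun t => U t k) 0) (jH F.toPre u))), jH F.toPre v⟫_ℝ -
        ⟪c (deriv (deriv fun t => U t k') 0) (P (e k (jH F.toPre u))), jH F.toPre v⟫_ℝ)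
      (fun u v hu hv => by
        have := prj_L (j0 F U) (L0 F U hA) (L0_symm hA hU) (L0_pos hA hU) w3 (pr hU hk hu) (pr hU hk' hv)
        simp only [j0_L0, j0_pr, map_sub, inner_sub_left, inner_sub_right, ← inner_ctH] at this
        simp only [ContinuousLinearMap.comp_apply]
        linarith)
      fun f u v hf hu hv => by simp only [bal _ _ f u v hf hu hv]
    simp only [ContinuousLinearMap.comp_apply] at t1
    have t3 : ∀ y v, p y (T y v) = T y v := fun y v => by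
      have := fx _ (H.starProjection_apply_mem (e k (jH F.toPre fun _ => v)))
      have := (cm hp.sm k' _).symm.trans (congrArg (c k') this)
      rw [t1 _ contMDiff_const, mu hp.sm (hT.clm_apply contMDiff_const)] at this
      exact congrFun (inj (hp.sm.clm_apply (hT.clm_apply contMDiff_const))
        (hT.clm_apply contMDiff_const) this) y
    have t4 : ∀ y v, T y (p y v) = T y v := fun y v => by
      have := pm hp.sm hp.symm (fun a ha => by
        rw [fx _ (mem_cl ⟨a, ha, rfl⟩)]; exact mem_cl ⟨a, ha, rfl⟩) k k' (jH F.toPre fun _ => v)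
      rw [mu hp.sm contMDiff_const, t1 _ contMDiff_const, t1 _ (hp.sm.clm_apply contMDiff_const),
        mu hp.sm (hT.clm_apply contMDiff_const)] at this
      exact (congrFun (inj (hT.clm_apply (hp.sm.clm_apply contMDiff_const))
        (hp.sm.clm_apply (hT.clm_apply contMDiff_const)) this) y).trans (t3 y v)
    obtain ⟨μ, hμ⟩ := schur h hp hi h3 hT t2 t3
    refine H_eq (by fun_prop) (by fun_prop) fun u => ?_
    rw [← jH_coe, mu hS u.2.1, t1 _ u.2.1, t1 _ (hS.clm_apply u.2.1), mu hS (hT.clm_apply u.2.1)]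
    refine congrArg (jH F.toPre) (funext fun y => ?_)
    rw [← t4, ← t4 y (u.1 y), hμ, hμ, map_smul, ← mul_apply_eq_comp, ← hc]; rfl
  let K₀ := cl {k : K | ContDiff ℝ ∞ fun t => U t k}
  have z1 : ∀ k ∈ K₀ᗮ, ∀ x, c k (P x) = 0 := fun k hk x =>
    map_cl (U := ⊥) isClosed_singleton (c k) (by
      rintro _ ⟨a, -, rfl⟩
      refine (jH_rep (rep_ctH k) (sm_slice_fst a.2.1 0)).trans (Eq.trans (congrArg (jH F.toPre)
        (funext fun y => ?_)) ((jH_smul (contMDiff_const (c := 0)) 0).trans (zero_smul _ _)))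
      ext i
      rw [ct_apply, zero_smul, real_inner_comm]
      refine hk _ (mem_cl ?_)
      have := (PiLp.proj 2 (fun _ : σ => K) i : Fm σ K →L[ℝ] K).contDiff.comp (sm_slice_snd a.2.1 y)
      have e : (fun t => U t (a.1 (y, 0) i)) = fun t => a.1 (y, t) i := funext fun t => by
        rw [← zero_add t, a.2.2, zero_add]; rfl
      exact (congrArg (ContDiff ℝ ∞) e).mpr this) (H.starProjection_apply_mem x)
  have z2 : ∀ k ∈ K₀ᗮ, ∀ z, P (e k z) = 0 := fun k hk z => ext_inner_right ℝ fun x => by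
    rw [H.inner_starProjection_left_eq_right, real_inner_comm, ← inner_ctH, z1 k hk]; simp
  have a2 : ∀ k k' z, c k' (P (e k (mO F.toPre S z))) = mO F.toPre S (c k' (P (e k z))) := by
    intro k k' z
    obtain ⟨k₁, h1, k₂, h2, rfl⟩ := K₀.exists_add_mem_mem_orthogonal k
    obtain ⟨l₁, g1, l₂, g2, rfl⟩ := K₀.exists_add_mem_mem_orthogonal k'
    simp only [map_add, add_apply, z2 k₂ h2, z1 l₂ g2, add_zero]
    refine sub_eq_zero.1 (map_cl (U := ⊥) isClosed_singleton
      (c l₁ ∘L P ∘L e.flip (mO F.toPre S z) - mO F.toPre S ∘L c l₁ ∘L P ∘L e.flip z)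
      (fun k hk => map_cl (U := ⊥) isClosed_singleton
        (c.flip (P (e k (mO F.toPre S z))) - mO F.toPre S ∘L c.flip (P (e k z)))
        (fun l hl => sub_eq_zero.2 (a1 k l hk hl z)) g1) h1)
  have a3 : ∀ x, P (m S x) = m S (P x) := fun x =>
    (ten σ K F.toPre 0).dense_e (P := fun x => P (m S x) = m S (P x))
      (isClosed_eq (by fun_prop) (by fun_prop)) (by simp) (fun u v a b => by simp only [map_add, a, b])
      (fun k z => ext_ctH fun k' => (congrArg (fun w => c k' (P w)) (me hS k z)).trans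
        ((a2 k k' z).trans (cm hS k' _).symm)) x
  intro a ha y
  have s := (cb_sm (cb hS)).clm_apply (sm_slice_fst a.2.1 0)
  have a4 : m S (j0 F U a) = 0 := by
    rw [← Submodule.starProjection_eq_self_iff.2 (mem_cl ⟨a, ha, rfl⟩ : j0 F U a ∈ H), ← a3]
    refine (Submodule.starProjection_apply_eq_zero_iff _).2 fun x hx => ?_
    refine Submodule.mem_orthogonal_singleton_iff_inner_left.1
      (cl_le (Submodule.isClosed_orthogonal _) ?_ hx)
    rintro _ ⟨b, hb, rfl⟩
    refine Submodule.mem_orthogonal_singleton_iff_inner_right.2 ?_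
    rw [mj hS]
    exact (inner_jH s (sm_slice_fst b.2.1 0)).trans (by simp [ho a ha b hb])
  refine ext_ct' fun k => ?_
  have := congrArg (c k) a4
  rw [mj hS, jH_rep (rep_ctH k) s, map_zero, ← zero_smul ℝ (jH F.toPre fun _ => (0 : Eu σ)),
    ← jH_smul contMDiff_const] at this
  simpa using congrFun (inj (sm_clm _ s) (sm_smul contMDiff_const contMDiff_const) this) y

end Crest.Agent.X212.Der92
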