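import Crest.Agent.X212.Nt92.Gen
import Crest.Agent.X212.Dgr80.Tr

/-!
# Row 212, CRIT-DER (helper92), part 1: fields of linear maps determined by families of sections
-/

set_option autoImplicit false
set_option linter.unusedSectionVars false
noncomputable section
open scoped Manifold ContDiff Topology InnerProductSpace
open MeasureTheory Set Function Filter

namespace Crest.Agent.X212.Der92
open An Sob92 Wrd81 Nt92 Dgr80

variable {E : Type} [NormedAddCommGroup E] [NormedSpace ℝ E] [FiniteDimensional ℝ E]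
  [MeasurableSpace E] [BorelSpace E]
  {HM : Type} [TopologicalSpace HM] {I : ModelWithCorners ℝ E HM} [I.Boundaryless]
  {M : Type} [TopologicalSpace M] [ChartedSpace HM M] [IsManifold I ∞ M]
  [MeasurableSpace M] [T2Space M] [BorelSpace M] [SecondCountableTopology M] [CompactSpace M]
  {ι : Type} [Fintype ι]
  {V : Type} [NormedAddCommGroup V] [InnerProductSpace ℝ V] [FiniteDimensional ℝ V]
  {W : Type} [NormedAddCommGroup W] [InnerProductSpace ℝ W] [FiniteDimensional ℝ W]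
  {U : Type} [NormedAddCommGroup U] [InnerProductSpace ℝ U] [FiniteDimensional ℝ U]
  {F : Fr I M ι} {A : ι → M → V →L[ℝ] V} {A' : ι → M → W →L[ℝ] W}

theorem hcs {N : Type} [Zero N] (u : M → N) : HasCompactSupport u :=
  HasCompactSupport.of_compactSpace u

theorem int_inner {u v : M → V} (hu : Sm I u) (hv : Sm I v) :
    Integrable (fun x => ⟪u x, v x⟫_ℝ) F.μ :=
  F.integrable_inner hu.continuous (hcs u) hv.continuous

theorem exists_frm {q : M → V →L[ℝ] V} (hq : Sm I q)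
    (hs : ∀ x v w, ⟪q x v, w⟫_ℝ = ⟪v, q x w⟫_ℝ) (hi : ∀ x v, q x (q x v) = q x v)
    {𝒩 : Set (M → V)} (sm : ∀ n ∈ 𝒩, Sm I n)
    (sp : ∀ x v, q x v = v → (∀ n ∈ 𝒩, ⟪n x, v⟫_ℝ = 0) → v = 0) :
    ∃ S : Finset (M → V), ↑S ⊆ 𝒩 ∧ ∀ y, IsUnit (frm q S y) := by
  classical
  have := FiniteDimensional.complete ℝ V
  have h1 : ∀ x, ∃ s : Finset (M → V), ↑s ⊆ 𝒩 ∧ IsUnit (frm q s x) := by
    intro x
    obtain ⟨t, ht, e⟩ := (Submodule.fg_span_iff_fg_span_finset_subset ((· x) '' 𝒩)).1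
      (IsNoetherian.noetherian (R := ℝ) _)
    obtain ⟨s, h1, rfl⟩ := Finset.subset_set_image_iff.1 ht
    refine ⟨s, h1, (isUnit_frm (hs x) (hi x)).2 fun v h2 h3 => sp x v h2 fun n hn => ?_⟩
    have : Submodule.span ℝ ((· x) '' 𝒩) ≤ (ℝ ∙ v)ᗮ := by
      rw [e, Submodule.span_le]
      intro w hw
      obtain ⟨n, hn, rfl⟩ := Finset.mem_image.1 hw
      exact Submodule.mem_orthogonal_singleton_iff_inner_left.2 (h3 n hn)
    exact Submodule.mem_orthogonal_singleton_iff_inner_left.1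
      (this (Submodule.subset_span ⟨n, hn, rfl⟩))
  choose s h2 h3 using h1
  obtain ⟨t, hcov⟩ := isCompact_univ.elim_nhds_subcover' (fun x _ => {y | IsUnit (frm q (s x) y)})
    fun x _ => (Units.isOpen.preimage (sm_frm hq fun n hn => sm n (h2 x hn)).continuous).mem_nhds
      (h3 x)
  refine ⟨t.biUnion fun x => s x, fun n hn => ?_, fun y => ?_⟩
  · obtain ⟨x, -, h⟩ := Finset.mem_biUnion.1 hn
    exact h2 x h
  · obtain ⟨x, hx, h⟩ := mem_iUnion₂.1 (hcov (mem_univ y))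
    exact (isUnit_frm (hs y) (hi y)).2 fun v a b => (isUnit_frm (hs y) (hi y)).1 h v a
      fun n hn => b n (Finset.mem_biUnion.2 ⟨x, hx, hn⟩)

/-- a family of pairs which spans `q` and is pointwise a graph is the graph of a smooth field -/
theorem exists_fld {q : M → V →L[ℝ] V} (hq : Sm I q)
    (hs : ∀ x v w, ⟪q x v, w⟫_ℝ = ⟪v, q x w⟫_ℝ) (hi : ∀ x v, q x (q x v) = q x v)
    {𝒥 : Set ((M → V) × (M → W))} (sm : ∀ j ∈ 𝒥, Sm I j.1 ∧ Sm I j.2)
    (fix : ∀ j ∈ 𝒥, ∀ x, q x (j.1 x) = j.1 x)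
    (sp : ∀ x v, q x v = v → (∀ j ∈ 𝒥, ⟪j.1 x, v⟫_ℝ = 0) → v = 0)
    (gr : ∀ j ∈ Submodule.span ℝ 𝒥, ∀ x, j.1 x = 0 → j.2 x = 0) :
    ∃ T : M → V →L[ℝ] W, Sm I T ∧ (∀ x v, T x (q x v) = T x v) ∧ ∀ j ∈ 𝒥, ∀ x, T x (j.1 x) = j.2 x := by
  classical
  have := FiniteDimensional.complete ℝ V
  obtain ⟨S, hS, hU⟩ := exists_frm hq hs hi (𝒩 := Prod.fst '' 𝒥)
    (by rintro _ ⟨j, hj, rfl⟩; exact (sm j hj).1) fun x v a b => sp x v a fun j hj => b _ ⟨j, hj, rfl⟩
  have h1 : ∀ n ∈ S, ∃ n', (n, n') ∈ 𝒥 := fun n hn => let ⟨j, hj, e⟩ := hS hn; ⟨j.2, e ▸ hj⟩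
  choose! σ hσ using h1
  refine ⟨fun x => (∑ n ∈ S, ContinuousLinearMap.smulRightL ℝ V W (innerSL ℝ (n x)) (σ n x)) ∘L
    Ring.inverse (frm q S x) ∘L q x, ContMDiff.clm_comp ?_ (ContMDiff.clm_comp (fun y => ?_) hq),
    fun x v => by simp [hi], fun j hj x => ?_⟩
  · exact contMDiff_finsetSum fun n hn => ((ContinuousLinearMap.smulRightL ℝ V W).contMDiff.comp
      ((innerSL ℝ : V →L[ℝ] V →L[ℝ] ℝ).contMDiff.comp (sm _ (hσ n hn)).1)).clm_apply
      (sm _ (hσ n hn)).2
  · obtain ⟨T, hT⟩ := hU y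
    exact (hT ▸ (contDiffAt_ringInverse ℝ T).contMDiffAt).comp y
      (sm_frm hq (fun n hn => (sm _ (hσ n hn)).1) y)
  · set z := Ring.inverse (frm q S x) (j.1 x) with hz
    have a1 : frm q S x z = j.1 x := by
      rw [hz, ← mul_apply_eq_comp, Ring.mul_inverse_cancel _ (hU x)]; rfl
    have a2 : j.1 x = ∑ n ∈ S, ⟪n x, z⟫_ℝ • n x := by
      rw [← fix j hj x, ← a1, frm_apply, map_add, map_sub, hi, sub_self, add_zero, map_sum]
      exact Finset.sum_congr rfl fun n hn => by rw [map_smul, fix _ (hσ n hn)]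
    have a3 := gr (j - ∑ n ∈ S, ⟪n x, z⟫_ℝ • (n, σ n)) (sub_mem (Submodule.subset_span hj)
      (Submodule.sum_mem _ fun n hn => Submodule.smul_mem _ _ (Submodule.subset_span (hσ n hn)))) x
      (by simp [Prod.fst_sum, ← a2])
    simp only [Prod.snd_sub, Prod.snd_sum, Pi.sub_apply, Finset.sum_apply, sub_eq_zero] at a3
    simp [a3, fix j hj x, ← hz]

variable (F) in
/-- operators with a formal adjoint -/
structure Ad (L : (M → V) → M → W) : Prop where
  sm : ∀ u, Sm I u → Sm I (L u)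
  ad : ∀ φ, Sm I φ → ∃ ψ, Sm I ψ ∧
    ∀ u, Sm I u → ∫ x, ⟪L u x, φ x⟫_ℝ ∂F.μ = ∫ x, ⟪u x, ψ x⟫_ℝ ∂F.μ

namespace Ad
variable {L L' : (M → V) → M → W}

theorem app {T : M → V →L[ℝ] W} (hT : Sm I T) : Ad F fun u x => T x (u x) := by
  have := FiniteDimensional.complete ℝ V
  have := FiniteDimensional.complete ℝ W
  exact ⟨fun u hu => hT.clm_apply hu, fun φ hφ => ⟨fun x => ContinuousLinearMap.adjoint (T x) (φ x),
    (((ContinuousLinearMap.adjoint (𝕜 := ℝ) (E := V) (F := W)).toContinuousLinearEquiv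
      |>.toContinuousLinearMap.contMDiff.comp hT).clm_apply hφ :), fun u _ => by
      simp only [ContinuousLinearMap.adjoint_inner_right]⟩⟩

theorem comp {K : (M → W) → M → U} (k : Ad F K) (h : Ad F L) : Ad F fun u => K (L u) :=
  ⟨fun u hu => k.sm _ (h.sm u hu), fun φ hφ =>
    let ⟨ψ, h1, h2⟩ := k.ad φ hφ
    let ⟨χ, h3, h4⟩ := h.ad ψ h1
    ⟨χ, h3, fun u hu => (h2 _ (h.sm u hu)).trans (h4 u hu)⟩⟩

theorem add (h : Ad F L) (k : Ad F L') : Ad F fun u x => L u x + L' u x :=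
  ⟨fun u hu => (h.sm u hu).add (k.sm u hu), fun φ hφ =>
    let ⟨ψ, h1, h2⟩ := h.ad φ hφ
    let ⟨χ, h3, h4⟩ := k.ad φ hφ
    ⟨fun x => ψ x + χ x, h1.add h3, fun u hu => by
      simp only [inner_add_left, inner_add_right]
      rw [integral_add (int_inner (h.sm u hu) hφ) (int_inner (k.sm u hu) hφ),
        integral_add (int_inner hu h1) (int_inner hu h3), h2 u hu, h4 u hu]⟩⟩

theorem neg (h : Ad F L) : Ad F fun u x => -L u x :=
  (app (T := fun _ => -ContinuousLinearMap.id ℝ W) contMDiff_const).comp h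

theorem sub (h : Ad F L) (k : Ad F L') : Ad F fun u x => L u x - L' u x := by
  simp only [sub_eq_add_neg]; exact h.add k.neg

theorem smul (h : Ad F L) {f : M → ℝ} (hf : Sm I f) : Ad F fun u x => f x • L u x :=
  (app (T := fun x => f x • ContinuousLinearMap.id ℝ W) (sm_smul hf contMDiff_const)).comp h

theorem sum {κ : Type*} (s : Finset κ) {L : κ → (M → V) → M → W} (h : ∀ i, Ad F (L i)) :
    Ad F fun u x => ∑ i ∈ s, L i u x := by
  classical
  induction s using Finset.induction_on with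
  | empty => exact app (T := fun _ => 0) contMDiff_const
  | insert i s hi ih => simp only [Finset.sum_insert hi]; exact (h i).add ih

theorem cov (hA : Mp86.Mc I A) (a : ι) : Ad F (cov F.toPre A a) :=
  ⟨fun _ hu => sm_cov _ hA.sm hu a, fun φ hφ =>
    ⟨fun x => -(Wrd81.cov F.toPre A a φ x + F.dv a x • φ x),
      ((sm_cov _ hA.sm hφ a).add (sm_smul (F.dv_sm a) hφ)).neg, fun u hu => by
      have := ibp_cov F hA.sm hA.sk hu (hcs u) hφ a
      simp only [inner_neg_right, inner_add_right, real_inner_smul_right, integral_neg]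
      rw [integral_add (int_inner hu (sm_cov _ hA.sm hφ a)) (integrable_dv F hu (hcs u) hφ a)]
      linarith⟩⟩

theorem lap1 (hA : Mp86.Mc I A) : Ad F (lap1 F A) :=
  ⟨fun _ hu => sm_lap1 F hA.sm hu, fun _ hφ => ⟨_, sm_lap1 F hA.sm hφ, fun u hu =>
    ibp_lap1 F hA.sm hA.sk hu (hcs u) hφ⟩⟩

end Ad

theorem isRes_res (h : RH F A) {u : M → V} (hu : Sm I u) : F.IsRes A u (F.res A u) :=
  (h.isRes_tst hu (hcs u)).1

theorem lap1_res (h : RH F A) {u : M → V} (hu : Sm I u) : lap1 F A (F.res A u) = u :=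
  (isRes_iff.1 (isRes_res h hu)).2.2

theorem res_symm (h : RH F A) {u v : M → V} (hu : Sm I u) (hv : Sm I v) :
    ∫ x, ⟪F.res A u x, v x⟫_ℝ ∂F.μ = ∫ x, ⟪u x, F.res A v x⟫_ℝ ∂F.μ := by
  have := ibp_lap1 F h.mc.sm h.mc.sk (isRes_res h hu).1 (hcs _) (isRes_res h hv).1
  rw [lap1_res h hu, lap1_res h hv] at this
  exact this.symm

theorem tf_univ {f : M → ℝ} (hf : Sm I f) : Tf I univ f := ⟨hf, hcs f, subset_univ _⟩

/-- a smooth function which is orthogonal to all smooth functions vanishes -/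
theorem zero_of_int {g : M → ℝ} (hg : Sm I g)
    (h : ∀ f : M → ℝ, Sm I f → ∫ x, f x * g x ∂F.μ = 0) (x : M) : g x = 0 :=
  congrFun (eq_zero_of_tst (V := ℝ) F.μ isOpen_univ dense_univ hg fun φ hφ _ => by
    simpa [mul_comm] using h φ hφ.1) x

variable {𝒲 : Set (M → V)} {π : M → V →L[ℝ] V}

/-- an operator which kills the resolvents of the words kills all sections of `π` -/
theorem Ad.zero {L : (M → V) → M → W} (k : Ad F L) (h : RH F A) (c : Fam univ univ F A 𝒲)
    (p : Prj univ univ F A 𝒲 π) (h0 : ∀ w ∈ 𝒲, L (F.res A w) = 0) {u : M → V} (hu : Sm I u)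
    (hp : ∀ x, π x (u x) = u x) : L u = 0 := by
  refine eq_zero_of_tst F.μ isOpen_univ dense_univ (k.sm u hu) fun φ hφ _ => ?_
  obtain ⟨ψ, h1, h2⟩ := k.ad φ hφ.1
  have h3 := (isRes_res h h1).1
  have h4 : ∀ x, π x (F.res A ψ x) = 0 := fun x =>
    p.orth _ h3 univ isOpen_univ Subset.rfl (fun w hw y _ => by
      refine zero_of_int (F := F) (Wrd81.sm_inner h3 (c.sm w hw)) (fun f hf => ?_) y
      have hw' := c.mul f (tf_univ hf) w hw
      have := h2 _ (isRes_res h (c.sm _ hw')).1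
      rw [h0 _ hw', res_symm h (c.sm _ hw') h1] at this
      simpa [real_inner_smul_left, real_inner_comm] using this.symm) x (mem_univ x)
  have h5 : ∀ x, π x (ψ x) = 0 := fun x => by
    rw [← lap1_res h h1, ← p.pp.lap1 h.mc.sm h3]
    simp only [h4]
    exact lap1_zero x
  simp only [real_inner_comm (L u _)]
  rw [h2 u hu]
  refine integral_eq_zero_of_ae (.of_forall fun x => ?_)
  change ⟪u x, ψ x⟫_ℝ = 0
  rw [← hp, p.symm, h5]; simp

variable (F A A') in
/-- the first order variation of `∇^*∇`, between two bundles -/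
def dm (α : ι → M → V →L[ℝ] W) (u : M → V) : M → W := fun x =>
  -∑ a, (α a x (cov F.toPre A a u x) + cov F.toPre A' a (fun y => α a y (u y)) x +
    F.dv a x • α a x (u x))

variable {α : ι → M → V →L[ℝ] W}

theorem ad_dm (hA : Mp86.Mc I A) (hA' : Mp86.Mc I A') (hα : ∀ a, Sm I (α a)) :
    Ad F (dm F A A' α) :=
  (Ad.sum _ fun a => (((Ad.app (hα a)).comp (Ad.cov hA a)).add
    ((Ad.cov hA' a).comp (Ad.app (hα a)))).add ((Ad.app (hα a)).smul (F.dv_sm a))).neg

theorem dm_smul (hα : ∀ a, Sm I (α a)) {f : M → ℝ} {u : M → V} (hf : Sm I f) (hu : Sm I u)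
    (x : M) : dm F A A' α (fun y => f y • u y) x =
      f x • dm F A A' α u x - (2 : ℝ) • ∑ a, F.D a f x • α a x (u x) := by
  simp only [dm, map_smul, cov_smul _ A hf hu, cov_smul _ A' hf ((hα _).clm_apply hu), map_add,
    smul_neg, Finset.smul_sum, sub_eq_add_neg, ← neg_add, ← Finset.sum_add_distrib]
  congr 1
  exact Finset.sum_congr rfl fun a _ => by module

theorem dm_zero (u : M → V) : dm F A A' (fun _ _ => (0 : V →L[ℝ] W)) u = 0 := by
  funext x; simp [dm, cov, Pre.D, dv_const]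

variable (F A A') in
/-- covariant derivative of a field of linear maps -/
def nT (a : ι) (T : M → V →L[ℝ] W) (x : M) : V →L[ℝ] W := F.D a T x + A' a x ∘L T x - T x ∘L A a x

theorem cov_app {T : M → V →L[ℝ] W} (hT : Sm I T) {u : M → V} (hu : Sm I u) (a : ι) (x : M) :
    cov F.toPre A' a (fun y => T y (u y)) x = T x (cov F.toPre A a u x) + nT F A A' a T x (u x) := by
  simp only [cov, nT, Pre.D, Sob92.dv_app (md hT x) (md hu x), map_add, add_apply, sub_apply,
    ContinuousLinearMap.comp_apply]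
  abel

/-- **A field which intertwines the resolvents on the words is parallel along `π`.** -/
theorem par_fld (h : RH F A) (hA' : Mp86.Mc I A') (hP' : ∀ a x, ∑ b, F.P a b x • A' b x = A' a x)
    (hα : ∀ a, Sm I (α a)) (hP : ∀ a x, ∑ b, F.P a b x • α b x = α a x) (c : Fam univ univ F A 𝒲)
    (p : Prj univ univ F A 𝒲 π) {T : M → V →L[ℝ] W} (hT : Sm I T)
    (h0 : ∀ w ∈ 𝒲, ∀ x, lap1 F A' (fun y => T y (F.res A w y)) x =
      T x (w x) - dm F A A' α (F.res A w) x) (a : ι) (x : M) (v : V) :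
    (nT F A A' a T x + α a x) (π x v) = 0 := by
  have k := (((Ad.lap1 (F := F) hA').comp (Ad.app hT)).sub ((Ad.app hT).comp (Ad.lap1 h.mc))).add
    (ad_dm h.mc hA' hα)
  have k0 := fun {u} hu hp => congrFun (k.zero h c p (fun w hw => funext fun y => by
    simp only [h0 w hw, lap1_res h (c.sm w hw)]; simp) (u := u) hu hp) x
  obtain ⟨g, hg, e⟩ := exists_tf_D F (univ_mem : univ ∈ 𝓝 x) a
  have hu : Sm I fun y => π y v := p.sm.clm_apply contMDiff_const
  have e1 := k0 hu fun y => p.idem y v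
  have e2 := k0 (sm_smul hg.sm hu) fun y => by rw [map_smul, p.idem]
  simp only [map_smul, lap1_smul F hA'.sm hg.sm (hT.clm_apply hu), lap1_smul F h.mc.sm hg.sm hu,
    dm_smul hα hg.sm hu, map_sub, map_sum, cov_app (A := A) hT hu, smul_add,
    Finset.sum_add_distrib, e, Pi.zero_apply] at e1 e2
  have e3 : ∑ b, F.P a b x • nT F A A' b T x (π x v) + ∑ b, F.P a b x • α b x (π x v) = 0 := by
    linear_combination (norm := module) (g x / 2) • e1 - (1 / 2 : ℝ) • e2
  have e4 : ∑ b, F.P a b x • nT F A A' b T x = nT F A A' a T x := by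
    simp only [nT, smul_sub, smul_add, Finset.sum_sub_distrib, Finset.sum_add_distrib, P_D]
    rw [← hP' a x, ← h.proj a x]
    simp only [ContinuousLinearMap.finsetSum_comp, ContinuousLinearMap.comp_finsetSum,
      ContinuousLinearMap.smul_comp, ContinuousLinearMap.comp_smul]
  rw [← e4, ← hP a x]
  simpa using e3

/-! ### the variation of words -/

variable [CompleteSpace V] [CompleteSpace U] (r : CL U (CL V V)) (ξ : M → Fm ι U)

/-- the variation of the connection -/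
def rv : ι → M → V →L[ℝ] V := fun a x => r (ξ x a)

variable (F A) in
/-- the variation of a word -/
def vw (s σ : M → V) : List (SL M V) → M → V
  | [] => σ
  | .op T :: w => fun x => T x (vw s σ w x)
  | .G :: w => F.res A fun x =>
      vw s σ w x - dm F A A (rv r ξ) (F.res A (wd (sl F A) s w)) x

variable {r ξ}

theorem cls (h : RH F A) : Dgr80.Cls F A (Sm I) :=
  ⟨fun _ hu => hu, fun _ hu => isRes_res h hu, fun _ hu => (isRes_res h hu).1⟩

theorem sm_rv (hξ : Sm I ξ) (a : ι) : Sm I (rv r ξ a) :=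
  r.contMDiff.comp ((PiLp.proj 2 (fun _ : ι => U) a : Fm ι U →L[ℝ] U).contMDiff.comp hξ)

theorem sm_vw {s σ : M → V} (hσ : Sm I σ) : ∀ {w : List (SL M V)}, (∀ t ∈ w, t.Ok (Sm I)) →
    Sm I (vw F A r ξ s σ w)
  | [], _ => hσ
  | .op _ :: _, hw => (hw _ List.mem_cons_self _
      (sm_vw hσ fun t ht => hw t (List.mem_cons_of_mem _ ht))).1
  | .G :: _, _ => Mp86.sm_res _ _ _

theorem int_dm (h : RH F A) (hξ : Sm I ξ) (hs : ∀ x a, Wz78.Skew (r (ξ x a))) {u l : M → V}
    (hu : Sm I u) (hl : Sm I l) : ∫ x, ⟪dm F A A (rv r ξ) u x, l x⟫_ℝ ∂F.μ =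
      ∫ x, ⟪cur F A r u l x, ξ x⟫_ℝ ∂F.μ := by
  have a := fun a => (sm_rv (r := r) hξ a).clm_apply hu
  have b := fun a => sm_cov F.toPre h.mc.sm hu a
  have i1 := fun a => int_inner (F := F) ((sm_rv (r := r) hξ a).clm_apply (b a)) hl
  have i2 := fun k => int_inner (F := F) (sm_cov F.toPre h.mc.sm (a k) k) hl
  have i3 := fun k => integrable_dv F (a k) (hcs _) hl k
  have i4 := fun k => int_inner (F := F) (a k) (sm_cov F.toPre h.mc.sm hl k)
  have e : ∀ x, ⟪cur F A r u l x, ξ x⟫_ℝ = ∑ a, (⟪rv r ξ a x (u x), cov F.toPre A a l x⟫_ℝ -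
      ⟪rv r ξ a x (cov F.toPre A a u x), l x⟫_ℝ) := fun x => by
    rw [real_inner_comm, inner_cur]
    refine Finset.sum_congr rfl fun a _ => ?_
    rw [rv, hs x a _ (l x), sub_neg_eq_add, real_inner_comm]; rfl
  simp only [e, dm, inner_neg_left, sum_inner, inner_add_left, real_inner_smul_left, integral_neg]
  rw [integral_finsetSum _ fun k _ => ((i1 k).fun_add (i2 k)).fun_add (i3 k),
    integral_finsetSum _ fun k _ => (i4 k).sub' (i1 k), ← Finset.sum_neg_distrib]
  refine Finset.sum_congr rfl fun k _ => ?_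
  rw [integral_add ((i1 k).fun_add (i2 k)) (i3 k), integral_add (i1 k) (i2 k),
    integral_sub (i4 k) (i1 k)]
  linarith [ibp_cov F h.mc.sm h.mc.sk (a k) (hcs _) hl k]

/-- the gradients of `Dgr80` are adjoint to the variation -/
theorem int_vw (h : RH F A) (hξ : Sm I ξ) (hs : ∀ x a, Wz78.Skew (r (ξ x a))) {s σ : M → V}
    (h1 : Sm I s) (hσ : Sm I σ) : ∀ {w : List (SL M V)} {l : M → V}, (∀ t ∈ w, t.Ok (Sm I)) →
      Sm I l → ∫ x, ⟪gc F A r s w l x, ξ x⟫_ℝ ∂F.μ + ∫ x, ⟪bk F A w l x, σ x⟫_ℝ ∂F.μ =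
        ∫ x, ⟪l x, vw F A r ξ s σ w x⟫_ℝ ∂F.μ
  | [], _, _, _ => by simp [gc, bk, vw]
  | .op T :: w, l, hw, hl => by
    rw [gc, bk, int_vw h hξ hs h1 hσ (fun t ht => hw t (List.mem_cons_of_mem _ ht))
      ((cls h).slT (hw _ List.mem_cons_self) hl)]
    simp only [slT, vw, ContinuousLinearMap.adjoint_inner_left]
  | .G :: w, l, hw, hl => by
    have hw' := fun t ht => hw t (List.mem_cons_of_mem _ ht)
    have a := (isRes_res h hl).1
    have b := (isRes_res h ((cls h).wd h1 hw')).1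
    have c := sm_vw (F := F) (A := A) (r := r) (ξ := ξ) (s := s) hσ hw'
    have d := (ad_dm (F := F) h.mc h.mc (sm_rv (r := r) hξ)).sm _ b
    have e := int_vw h hξ hs h1 hσ hw' a
    simp only [gc, bk, slT, vw, inner_sub_left]
    rw [← res_symm h hl (c.sub d), integral_sub (int_inner ((cls h).sm_gc h.mc.sm hw' a) hξ)
      (int_inner (sm_cur h.mc.sm b a) hξ), ← int_dm h hξ hs b a]
    simp only [inner_sub_right]
    rw [integral_sub (int_inner a c) (int_inner a d), ← e]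
    simp only [real_inner_comm (dm F A A _ _ _)]
    ring

end Crest.Agent.X212.Der92
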