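import Crest.Agent.X212.Der92.Eqv
import Crest.Agent.X212.Cyc79.Tr
import Crest.Agent.X212.Lin97.Spl

/-!
# Row 212, CRIT-DERI (helper92), part 3: the cyclic seeds span `g`
-/

set_option autoImplicit false
set_option linter.unusedSectionVars false
noncomputable section
open scoped Manifold ContDiff Topology InnerProductSpace
open MeasureTheory Set Function Filter

namespace Crest.Agent.X212.Der92
open An Sob92 Wrd81 Nt92 Cyf70 Cyc79 Spn45 Ten12 Dgr80
open Nd18 (ca)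

variable {E3 : Type} [NormedAddCommGroup E3] [NormedSpace ℝ E3] [FiniteDimensional ℝ E3]
  [MeasurableSpace E3] [BorelSpace E3]
  {H3 : Type} [TopologicalSpace H3] {I3 : ModelWithCorners ℝ E3 H3} [I3.Boundaryless]
  {Y : Type} [TopologicalSpace Y] [ChartedSpace H3 Y] [IsManifold I3 ∞ Y] [T2Space Y]
  [MeasurableSpace Y] [BorelSpace Y] [SecondCountableTopology Y] [CompactSpace Y]
  {κ : Type} [Fintype κ] {F : Fr I3 Y κ}

section shift
variable {V : Type} [NormedAddCommGroup V] [InnerProductSpace ℝ V]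

variable (Y) in
/-- translation -/
def shH (s : ℝ) : Y × ℝ ≃ₜ Y × ℝ := (Homeomorph.refl Y).prodCongr (Homeomorph.addRight s)

theorem int_sh (g : Y × ℝ → ℝ) (s : ℝ) : ∫ x, g (x.1, x.2 + s) ∂(cyl F).μ = ∫ x, g x ∂(cyl F).μ :=
  ((MeasurePreserving.id F.μ).prod (measurePreserving_add_right volume s)).integral_comp
    (shH Y s).measurableEmbedding g

variable (F V) in
/-- translation on `L²` -/
def shV (s : ℝ) : (cyl F).H 0 (triv (Y × ℝ) V) →L[ℝ] (cyl F).H 0 (triv (Y × ℝ) V) :=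
  (cyl F).lift 0 0 _ _ fun u x => u (x.1, x.2 + s)

theorem rep_shV (s : ℝ) : (cyl F).Rep (shV F V s) fun u x => u (x.1, x.2 + s) :=
  (rep_liftT (C := 1) (fun _ hu => mem_triv (sm_sh hu.1 s) (hu.2.1.comp_homeomorph (shH Y s)))
    (fun _ _ _ _ => rfl) (fun _ _ _ => rfl) zero_le_one fun u _ => by
      rw [one_mul]; exact (congrArg _ (int_sh (fun x => ⟪u x, u x⟫_ℝ) s)).le).1

theorem grp_shV : Grp fun s => shV F V (-s) where
  add s t := DFunLike.congr_fun (RepT_eq (rep_shV _) (RepT_comp (rep_shV _) (rep_shV _)) fun u =>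
    funext fun x => by simp only [neg_add, add_assoc, add_comm (-t)])
  iso s := H_eq₂ (by fun_prop) (by fun_prop) fun u v => by
    rw [RepT_toH (rep_shV _), RepT_toH (rep_shV _), Pre.inner_toH, Pre.inner_toH]
    exact int_sh (fun x => ⟪u.1 x, v.1 x⟫_ℝ) _
  zero := DFunLike.congr_fun (RepT_eq (rep_shV _) Rep_id fun u => funext fun x => by simp)

theorem inner_shV (s : ℝ) (x y : (cyl F).H 0 (triv (Y × ℝ) V)) :
    ⟪x, shV F V (-s) y⟫_ℝ = ⟪shV F V s x, y⟫_ℝ := by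
  rw [← grp_shV.iso s (shV F V s x)]
  have := grp_shV.add s (-s) x
  rw [neg_add_cancel, grp_shV.zero, neg_neg] at this
  rw [← this]

end shift

variable {σ : Type} [Fintype σ] [DecidableEq σ] {A : κ → Y → En σ} {p : Y → En σ} {f f' : Y → ℝ}

variable (F σ) in
/-- the translation group on the Hilbert fibre -/
abbrev UU : ℝ → KK (cyl F).toPre σ →L[ℝ] KK (cyl F).toPre σ := fun s => shV F (Eu σ) (-s)

theorem eqv_bs (h : Ok (cyl F) (ca A)) (hp : (cyl F).Cb fun x => p x.1)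
    (hs : Sep (cyl F).toPre (fun x => f x.1) fun x => f' x.1) :
    Eqv (UU F σ) (bs (cyl F) (ca A) (fun x => p x.1) (fun x => f x.1) fun x => f' x.1) :=
  fun y t s => ext_toH fun u => by
    have e : ∀ v : VV (cyl F).toPre σ, ct ((cyl F).toH 0 _ u) (fb (UU F σ s) v) = ct (shV F _ s ((cyl F).toH 0 _ u)) v :=
      fun v => by ext i; exact inner_shV s _ _
    rw [e, RepT_toH (rep_shV s), ct_bs h hs hp, ct_bs h hs hp]
    exact congrArg _ (congrFun (Mp86.res_eq h.bmp h.mc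
      (isRes_sh (ca_sh A) h.mc.sm (is_xO h hs.1 hs.2.1 hp u).1 s)) (y, t)).symm

/-- letters on the cylinder -/
def lz : La Y → La (Y × ℝ)
  | .mul f => .mul fun x => f x.1
  | .G => .G

theorem lz_ok {t : La Y} (h : Nd18.laOK I3 t) : La.OK (cyl F) (lz t) := by
  cases t
  exacts [Cht98.Cb_fst F.toPre (Cb_of_compact h), trivial]

theorem lz_oks {w : List (La Y)} (h : ∀ t ∈ w, Nd18.laOK I3 t) : ∀ t ∈ w.map lz, La.OK (cyl F) t :=
  List.forall_mem_map.2 fun t ht => lz_ok (h t ht)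

theorem sep_fst (h : Sep F.toPre f f') : Sep (cyl F).toPre (fun x => f x.1) fun x => f' x.1 :=
  let ⟨h1, h2, _, h3, h4, h5⟩ := h
  ⟨Cht98.Cb_fst _ h1, Cht98.Cb_fst _ h2, _, Cht98.Cb_fst _ h3, fun x => h4 x.1, fun x => h5 x.1⟩

variable {K : Type} [NormedAddCommGroup K] [InnerProductSpace ℝ K] [CompleteSpace K]
  {U : ℝ → K →L[ℝ] K} {a : Y × ℝ → Fm σ K}

theorem eqv_wg (hA : Mp86.Mc I3 A) (h : Pp (cyl F) (ca A) fun x => p x.1)
    (q : QI (cyl F) (fun x => p x.1) a) (e : Eqv U a) : ∀ {w : List (La Y)},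
    (∀ t ∈ w, Nd18.laOK I3 t) → Eqv U (wg (cyl F) (ca A) a (w.map lz))
  | [], _ => e
  | .mul f :: _, hw => (eqv_wg hA h q e fun t ht => hw t (List.mem_cons_of_mem _ ht)).smul f
  | .G :: _, hw =>
    have hw' := fun t ht => hw t (List.mem_cons_of_mem _ ht)
    (eqv_wg hA h q e hw').res hA (h.cls.res _ (h.cls.wd q (ok_map (lz_oks hw'))))

/-- the resolvent of the cylinder is not local in the direction of `Y` -/
theorem not_loc [ConnectedSpace Y] (h : Pp (cyl F) (ca A) fun x => p x.1) {y₀ y₁ : Y} (hy : y₀ ≠ y₁)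
    (h0 : p y₀ ≠ 0) : ∃ f f' : Y → ℝ, Sep F.toPre f f' ∧
      xO (cyl F) (ca A) (fun x => p x.1) (fun x => f x.1) (fun x => f' x.1) ≠ 0 := by
  by_contra! k
  obtain ⟨b, hb, b1⟩ := exists_tf (I := I3) (isOpen_compl_singleton.mem_nhds hy)
  obtain ⟨θ, hθ, θ1⟩ := exists_tf (I := IC I3) (univ_mem : univ ∈ 𝓝 (y₀, (0 : ℝ)))
  obtain ⟨v, hv⟩ : ∃ v, p y₀ v ≠ 0 := by
    by_contra! k; exact h0 (ContinuousLinearMap.ext k)
  let W : Set (Y × ℝ → Eu σ) := {w | Sm (IC I3) w ∧ (∃ x, Lv (cyl F).toPre x ∧ Is (cyl F).toPre 0 _ x w) ∧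
    (∀ z, p z.1 (w z) = w z) ∧ ∀ z, z.1 ∉ tsupport b → w z = 0}
  have mem : ∀ {g w}, Tf (IC I3) univ g → Sm (IC I3) w → (∀ z, p z.1 (w z) = w z) →
      (∀ z, z.1 ∉ tsupport b → w z = 0) → (fun x => g x • w x) ∈ W := fun hg h1 h2 h3 =>
    ⟨sm_smul hg.sm h1, ⟨_, lv_toH ⟨_, smul_mem_tst hg.sm hg.hcs h1⟩, Is.toH _⟩,
      fun z => by rw [map_smul, h2], fun z hz => by simp [h3 z hz]⟩
  have c : Fam univ univ (cyl F) (ca A) W := ⟨isClopen_univ, isOpen_univ, Subset.rfl, by simp,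
    fun w hw => hw.1, fun g hg w hw => mem hg hw.1 hw.2.2.1 hw.2.2.2, by
      rintro w ⟨h1, ⟨x, h2, h3⟩, h4, h5⟩
      obtain ⟨-, r2, r3⟩ := h.toOk.res h2 h1 h3
      refine ⟨cb_sm r2, ⟨_, h2.G h.toOk, r3⟩, Mp86.res_fix h.toOk.bmp h.toOk.mc h.sm (cb_bdd h.cp)
        h.itw h4, fun z hz => ?_⟩
      obtain ⟨φ, hφ, φ1⟩ := exists_tf (I := I3) ((isClosed_tsupport b).isOpen_compl.mem_nhds hz)
      have s1 : Sm I3 fun y => Real.smoothTransition (3 * φ y - 2) :=
        Real.smoothTransition.contDiff.comp_contMDiff ((contMDiff_const.mul hφ.sm).sub contMDiff_const)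
      have s2 : Sm I3 fun y => Real.smoothTransition (1 - 3 * φ y) :=
        Real.smoothTransition.contDiff.comp_contMDiff (contMDiff_const.sub (contMDiff_const.mul hφ.sm))
      have s3 : Sm I3 fun y => 3 * φ y - 1 := (contMDiff_const.mul hφ.sm).sub contMDiff_const
      have s : Sep F.toPre _ _ := ⟨Cb_of_compact s1, Cb_of_compact s2, _, Cb_of_compact s3,
        fun y hy => by linarith [not_le.1 (mt Real.smoothTransition.zero_of_nonpos hy)],
        fun y hy => by linarith [not_le.1 (mt Real.smoothTransition.zero_of_nonpos hy)]⟩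
      have s' := sep_fst s
      have e1 := ((h3.mulH h.cp (Maps.triv _)).smulH s'.2.1).unique (h3.congr (.of_forall fun u => by
        by_cases hu : u.1 ∈ tsupport b
        · simp [h4, image_eq_zero_of_notMem_tsupport fun k => hφ.sub k hu]
        · simp [h5 u hu]))
      have e2 := r3.smulH s'.1
      rw [← e1] at e2
      have z0 := DFunLike.congr_fun (k _ _ s) x
      have e3 := congrFun (is_eq (k := 0) Is.zero (by convert e2 using 1; exact z0.symm)
        continuous_const (sm_smul (cb_sm s'.1) (cb_sm r2)).continuous) z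
      rw [φ1] at e3
      simpa [show (3 : ℝ) - 2 = 1 by norm_num] using e3.symm⟩
  obtain ⟨π, hπ⟩ := c.exists_prj h.toOk.rh
  refine hπ.ne_zero' isPreconnected_univ (mem hθ (w := fun x => b x.1 • p x.1 v)
    (sm_smul (sm_fst hb.sm) (h.sm.clm_apply contMDiff_const))
    (fun z => by rw [map_smul, ← mul_apply_eq_comp, h.idem z])
    fun z hz => by rw [image_eq_zero_of_notMem_tsupport hz, zero_smul]) (x := (y₁, 0)) (y := (y₀, 0))
    trivial trivial (by simpa [θ1, b1] using hv) trivial (ContinuousLinearMap.ext fun u => ?_)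
  exact prj_pt c h.toOk.rh hπ fun w hw => by
    rw [hw.2.2.2 (y₁, 0) fun k => hb.sub k rfl, inner_zero_right]

theorem two_pts (F : Fr I3 Y κ) (h3 : Module.finrank ℝ E3 = 3) [Nonempty Y] : ∃ y₀ y₁ : Y, y₀ ≠ y₁ := by
  by_contra! k
  obtain ⟨x⟩ := ‹Nonempty Y›
  have h1 : ∀ a b, F.P a b x = 0 := fun a b => by
    obtain ⟨g, -, e⟩ := exists_tf_D F (univ_mem : univ ∈ 𝓝 x) a
    rw [← e, show g = fun _ => g x from funext fun y => congrArg g (k y x), Pre.D, dv_const]; rfl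
  have h2 : (⊤ : Submodule ℝ E3) = ⊥ := (F.span x).symm.trans (Submodule.span_eq_bot.2 (by
    rintro _ ⟨a, rfl⟩; simpa [h1] using (F.P_e a x).symm))
  rw [← finrank_top, h2, finrank_bot] at h3
  omega

/-! ### configurations -/

open Nd18 Crt72 Lin97 Wz78

variable {lam : Type} [Fintype lam] {D : YD I3 Y κ lam} {β : YC Y κ lam} {d : Cy Y}
  {w w' : List (La Y)}

theorem la_lz : D.nk.la = lz := funext fun t => by
  cases t
  exacts [congrArg La.mul (nk_ext _), rfl]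

theorem cyc_eq (d : Cy Y) :
    D.nk.cyc d = ⟨fun x => d.f x.1, fun x => d.f' x.1, d.w.map lz, d.w'.map lz⟩ := by
  rw [Nk.cyc, la_lz, nk_ext, nk_ext]

theorem laOK_of {F : Fr I3 Y κ} (h : ∀ t ∈ w, La.OK F t) : ∀ t ∈ w, laOK I3 t := fun t ht => by
  cases t
  exacts [cb_sm (h _ ht), trivial]

theorem laOK_to {F : Fr I3 Y κ} (h : ∀ t ∈ w, laOK I3 t) : ∀ t ∈ w, La.OK F t := fun t ht => by
  cases t
  exacts [Cb_of_compact (h _ ht), trivial]

theorem cyc_ok (h : d.OK D.F) : (D.nk.cyc d).OK D.Z :=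
  cyc_eq (D := D) d ▸ ⟨sep_fst h.sep, lz_oks (laOK_of h.w), lz_oks (laOK_of h.w')⟩

variable (D β) in
/-- the field of `w x x^*` -/
def fz (f f' : Y → ℝ) (w : List (La Y)) : Y × ℝ → VV D.Z.toPre (Fin β.m.N × Fin β.m.N) :=
  wg D.Z (ca (an β)) (bs D.Z (ca (an β)) (fun x => β.m.pg x.1) (fun x => f' x.1) fun x => f x.1)
    ((w ++ xw f f').map lz)

variable (D β) in
/-- the seed on `Y` -/
def sy (d : Cy Y) : Y → β.m.A := fun y => ((D.nk.cyc d).sed D.Z).s (cy β) (y, 0)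

variable (D β) in
/-- words on the seeds -/
def wy (d : Cy Y) (w : List (La Y)) : Y → β.m.A := wd (sl D.F (an β)) (sy D β d) (w.map (laV _))

section hy
variable (h : Hy D β)
include h

theorem adW_ca : (cy β).m.adW (cy β).W = ca (an β) := funext₂ fun a x => by
  cases a with
  | none => exact (congrArg adcL (h.tmp x.1)).trans (map_zero _)
  | some a => rfl

theorem co : CO D.B D.G (cy β) :=
  ⟨h.hB, h.ok.G, h.hm, h.hC, Cht98.tame_cyl D.F h.dim.le, fun a => Cht98.Cb_fst D.F.toPre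
    (Cb_of_compact (sm_slice_fst (h.hC.cc.sm a) 0)), Cht98.Cb_fst D.F.toPre h.cb_pg⟩

theorem ppZ : Pp D.Z (ca (an β)) fun x => β.m.pg x.1 := adW_ca h ▸ (co h).pp

theorem rhA : RH D.F (an β) :=
  rh_of_tame h.tame.choose_spec (fun a => Cb_of_compact (h.sm_an a)) h.sk_an h.con_an.proj

theorem ppA : PP D.F (an β) β.m.pg :=
  PP.of_nabE h.sm_pg inner_pg pg_pg fun a y => (congrArg (· + _)
    (congrFun (D_some_fst D.F.toPre h.sm_pg a) (y, 0)).symm).trans ((ppZ h).par (some a) (y, 0))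

theorem rk_pg (y : Y) : Module.finrank ℝ (β.m.pg y).range = 3 := by
  have : Module.finrank ℝ (β.m.gS y) = 3 := (Std94.finrank_g h.hB (h.px y) :)
  rw [← this, Md.pg, Submodule.range_starProjection]

theorem lin_of_pp {π : Y → CL β.m.A β.m.A} (k : PP D.F (an β) π) (hg : ∀ x v, β.m.pg x (π x v) = π x v)
    (h1 : ∀ x, Module.finrank ℝ (π x).range = 1) : D.Ln β :=
  ⟨fun x => π x.1, (sm_fst k.sm).contMDiffOn, fun x _ => ⟨k.symm x.1,
    ContinuousLinearMap.ext (k.idem x.1), ContinuousLinearMap.ext (hg x.1),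
    (LinearMap.IsProj.trace (p := (π x.1).range) ⟨fun v => ⟨v, rfl⟩, by
      rintro _ ⟨v, rfl⟩; exact k.idem _ v⟩).trans (by rw [h1, Nat.cast_one]), fun a => by
    rw [adW_ca h]
    cases a with
    | none =>
      have e : (0 : CL β.m.A β.m.A) + (0 * π x.1 - π x.1 * 0) = 0 := by simp
      exact (congrArg (fun T : CL β.m.A β.m.A => T + _) (congrFun (D_none_fst D.F.toPre k.sm) x)).trans e
    | some a =>
      have e : D.F.D a π x.1 + (an β a x.1 * π x.1 - π x.1 * an β a x.1) = 0 := by simp [k.par]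
      exact (congrArg (fun T : CL β.m.A β.m.A => T + _)
        (congrFun (D_some_fst D.F.toPre k.sm a) x)).trans e⟩⟩

theorem irr (hn : ¬D.Ln β) : Irr D.F (an β) univ β.m.pg := fun π k hg => by
  have := h.conn
  obtain ⟨y⟩ : Nonempty Y := inferInstance
  have hg' : ∀ x v, π x (β.m.pg x v) = π x v := fun x v =>
    ext_inner_right ℝ fun w => by rw [k.symm, inner_pg, hg, k.symm]
  have k' := (ppA h).sub k hg hg'
  have tr : ∀ {T : CL β.m.A β.m.A}, (∀ v, T (T v) = T v) →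
      LinearMap.trace ℝ _ (T : β.m.A →ₗ[ℝ] β.m.A) = Module.finrank ℝ T.range := fun h =>
    LinearMap.IsProj.trace ⟨fun v => ⟨v, rfl⟩, by rintro _ ⟨v, rfl⟩; exact h v⟩
  have t3 : Module.finrank ℝ (β.m.pg y - π y).range + Module.finrank ℝ (π y).range = 3 := by
    have := tr (pg_pg (m := β.m) y)
    rw [rk_pg h, ← sub_add_cancel (β.m.pg y) (π y), ContinuousLinearMap.toLinearMap_add, map_add,
      tr (k'.idem y), tr (k.idem y)] at this
    exact_mod_cast this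
  have r1 := fun x => rank_const k.sm.continuous k.idem isPreconnected_univ (mem_univ x) (mem_univ y)
  have r2 := fun x => rank_const k'.sm.continuous k'.idem isPreconnected_univ (mem_univ x) (mem_univ y)
  have z : ∀ {T : CL β.m.A β.m.A}, Module.finrank ℝ T.range = 0 → T = 0 := fun h =>
    ContinuousLinearMap.coe_injective (LinearMap.range_eq_bot.1 (Submodule.finrank_eq_zero.1 h))
  rcases (by omega : Module.finrank ℝ (π y).range = 0 ∨ Module.finrank ℝ (π y).range = 1 ∨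
    Module.finrank ℝ (β.m.pg y - π y).range = 1 ∨ Module.finrank ℝ (β.m.pg y - π y).range = 0)
    with e | e | e | e
  · exact .inl fun x _ => z ((r1 x).trans e)
  · exact (hn (lin_of_pp h k hg fun x => (r1 x).trans e)).elim
  · exact (hn (lin_of_pp h k' (fun x v => by simp [hg]) fun x => (r2 x).trans e)).elim
  · exact .inr fun x _ => (sub_eq_zero.1 (z ((r2 x).trans e))).symm

/-- the Killing form -/
theorem killing {y : Y} {ξ η : β.m.A} (hξ : ξ ∈ β.m.gS y) (hη : η ∈ β.m.gS y) {J : Type} [Fintype J]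
    (e : OrthonormalBasis J ℝ β.m.A) : ∑ i, ⟪adR _ ξ (β.m.pg y (e i)), adR _ η (β.m.pg y (e i))⟫_ℝ =
      1 / 2 * ⟪ξ, η⟫_ℝ := by
  have e1 : ∀ i, ⟪adR _ ξ (β.m.pg y (e i)), adR _ η (β.m.pg y (e i))⟫_ℝ =
      1 / 4 * (⟪e i, β.m.pg y (e i)⟫_ℝ * ⟪ξ, η⟫_ℝ - ⟪ξ, e i⟫_ℝ * ⟪e i, η⟫_ℝ) := fun i => by
    have g := pg_mem y (e i)
    have a : adc (opL (β.m.pg y (e i))) (adc (opL (β.m.pg y (e i))) η) = (1 / 4 : ℝ) •
        (⟪β.m.pg y (e i), η⟫_ℝ • β.m.pg y (e i) - ‖β.m.pg y (e i)‖ ^ 2 • η) :=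
      Std94.adc_adc h.hB (h.px y) g hη
    rw [adR_apply, adR_apply, adc_swap ξ, adc_swap η, inner_neg_neg, adc_skw g.1, a,
      ← real_inner_self_eq_norm_sq]
    simp only [inner_sub_right, real_inner_smul_right, inner_pg, pg_pg, pg_of_mem hη,
      ← inner_pg y ξ, pg_of_mem hξ]
    ring
  have e2 : ∑ i, ⟪e i, β.m.pg y (e i)⟫_ℝ = 3 := by
    have := (LinearMap.IsProj.trace (p := (β.m.pg y).range) (f := (β.m.pg y : β.m.A →ₗ[ℝ] β.m.A))
      ⟨fun v => ⟨v, rfl⟩, by rintro _ ⟨v, rfl⟩; exact pg_pg _ v⟩)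
    rw [rk_pg h, LinearMap.trace_eq_sum_inner _ e] at this
    exact_mod_cast this
  simp only [e1, ← Finset.mul_sum, Finset.sum_sub_distrib, ← Finset.sum_mul, e2,
    e.sum_inner_mul_inner]
  ring

theorem al_eq (d : Cy Y) : (D.nk.cyc d).al D.Z (cy β) = fz D β d.f d.f' d.w ∧
    (D.nk.cyc d).be D.Z (cy β) = fz D β d.f d.f' d.w' := by
  have e : ∀ w, (w ++ xw d.f d.f').map lz = w.map lz ++ xw (fun x => d.f x.1) fun x => d.f' x.1 :=
    fun _ => List.map_append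
  rw [cyc_eq, Cy.al, Cy.be, wv, wv, bf_eq, AA_eq, adW_ca h, fz, fz, e, e]
  exact ⟨rfl, rfl⟩

theorem xw_ok (hs : Sep D.F.toPre f f') (hw : ∀ t ∈ w, laOK I3 t) : ∀ t ∈ w ++ xw f f', laOK I3 t :=
  List.forall_mem_append.2 ⟨hw, laOK_of hs.ok⟩

theorem qi_fz (hs : Sep D.F.toPre f f') (hw : ∀ t ∈ w, laOK I3 t) :
    QI D.Z (fun x => β.m.pg x.1) (fz D β f f' w) :=
  (ppZ h).cls.wd ((ppZ h).qi_bs (sep_fst hs.symm)) (ok_map (lz_oks (xw_ok h hs hw)))

theorem eqv_fz (hs : Sep D.F.toPre f f') (hw : ∀ t ∈ w, laOK I3 t) : Eqv (UU D.F _) (fz D β f f' w) :=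
  eqv_wg (rhA h).mc (ppZ h) ((ppZ h).qi_bs (sep_fst hs.symm))
    (eqv_bs (ppZ h).toOk (ppZ h).cp (sep_fst hs.symm)) (xw_ok h hs hw)

theorem inner_s (d : Cy Y) (x : Y × ℝ) (l : β.m.A) : ⟪((D.nk.cyc d).sed D.Z).s (cy β) x, l⟫_ℝ =
    ⟪fz D β d.f d.f' d.w' x, amp _ (adR _ (β.m.pg x.1 l)) (fz D β d.f d.f' d.w x)⟫_ℝ := by
  rw [← (al_eq h d).1, ← (al_eq h d).2]
  exact Cy.inner_s _ D.Z (cy β) (fun _ => l) x

/-- the seeds do not depend on the time -/
theorem s_fst (hd : d.OK D.F) : ((D.nk.cyc d).sed D.Z).s (cy β) = fun x => sy D β d x.1 :=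
  funext fun x => ext_inner_right ℝ fun l => by
    have e := fun {w} hw => eqv_fz h hd.sep (w := w) hw x.1 0 x.2
    rw [zero_add] at e
    rw [sy, inner_s h, inner_s h, e (laOK_of hd.w), e (laOK_of hd.w'), ← fb_amp, grp_shV.inner_fb]

theorem sp_sy (hd : d.OK D.F) : Sp I3 β.m.pg (sy D β d) :=
  ⟨sm_slice_fst (cb_sm (Cy.cb_s (co h) (cyc_ok hd))) 0, fun y => pg_of_mem (Cy.s_mem _ D.Z (cy β) (y, 0))⟩

theorem sp_wy (hd : d.OK D.F) : ∀ {w : List (La Y)}, (∀ t ∈ w, laOK I3 t) → Sp I3 β.m.pg (wy D β d w)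
  | [], _ => sp_sy h hd
  | .mul _ :: _, hw => (sp_wy hd fun t ht => hw t (List.mem_cons_of_mem _ ht)).smul
      (hw _ List.mem_cons_self)
  | .G :: _, hw => (sp_wy hd fun t ht => hw t (List.mem_cons_of_mem _ ht)).res (ppA h) (rhA h)

theorem ne_zero (hn : ¬D.Ln β) : ∃ d : Cy Y, d.OK D.F ∧ sy D β d ≠ 0 := by
  by_contra! k
  have := h.conn
  obtain ⟨y₀, y₁, hy⟩ := two_pts D.F h.dim
  obtain ⟨f', f, hs, h0⟩ := not_loc (ppZ h) hy fun e => by
    have := rk_pg h y₀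
    rw [show (β.m.pg y₀).range = ⊥ by rw [show β.m.pg y₀ = 0 from e]; simp, finrank_bot] at this
    omega
  have hs' := hs.symm
  have q := fun {w} => qi_fz h hs' (w := w)
  let W : Set (SE I3 Y _ (UU D.F (Fin β.m.N × Fin β.m.N))) :=
    {a | ∃ w, (∀ t ∈ w, laOK I3 t) ∧ a.1 = fz D β f f' w}
  have mem : ∀ {w}, (∀ t ∈ w, laOK I3 t) → ∃ a ∈ W, a.1 = fz D β f f' w := fun hw =>
    ⟨⟨_, cb_sm (q hw).cb, eqv_fz h hs' hw⟩, ⟨_, hw, rfl⟩, rfl⟩
  obtain ⟨a, ha, e⟩ := mem (w := []) (by simp)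
  have z : ∀ l y, amp _ (adR _ (β.m.pg y l)) (a.1 (y, 0)) = 0 := fun l =>
    key (rhA h).mc grp_shV (rhA h) (ppA h) (irr h hn) (rk_pg h y₀) (W := W)
      (by rintro a ⟨w, hw, e⟩ y; rw [e]; exact (q hw).2 (y, 0))
      (by
        rintro a ⟨w, hw, e⟩ g hg
        rw [e]; exact mem (w := .mul g :: w) (List.forall_mem_cons.2 ⟨hg, hw⟩))
      (by
        rintro a ⟨w, hw, e⟩
        obtain ⟨b, hb, e'⟩ := mem (w := .G :: w) (List.forall_mem_cons.2 ⟨trivial, hw⟩)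
        refine ⟨b, hb, Subtype.ext (funext fun x => ?_)⟩
        rw [e, ← ((ppZ h).cls.res _ (q hw)).2.2 x]
        change lap1 _ _ b.1 x = _
        rw [e']; exact sub_eq_add_neg _ _)
      (S := fun y => adR _ (β.m.pg y l)) ((adR _).contMDiff.comp (h.sm_pg.clm_apply contMDiff_const))
      (fun y => ContinuousLinearMap.ext fun v => ext_inner_right ℝ fun u => by
        have s := adR_skw (pg_mem y l)
        have e := fun v => DFunLike.congr_fun (pg_adR y l) v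
        simp only [mul_apply_eq_comp] at e ⊢
        rw [← e, inner_pg, s, inner_pg, e, inner_pg, s])
      (by
        rintro a ⟨w, hw, e⟩ b ⟨w', hw', e'⟩ y
        rw [e, e', real_inner_comm]
        exact (inner_s h ⟨f, f', w, w'⟩ (y, 0) l).symm.trans ((congrArg (⟪·, l⟫_ℝ)
          (congrFun (k _ ⟨hs', laOK_to hw, laOK_to hw'⟩) y)).trans (inner_zero_left _))) a ha
  have z1 : ∀ y, a.1 (y, 0) = 0 := fun y => ext_ct' fun c => by
    have g : ct c (a.1 (y, 0)) ∈ β.m.gS y := by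
      rw [e, ← (q (w := []) (by simp)).2, ct_amp]; exact pg_mem _ _
    have := killing h g g (stdOrthonormalBasis ℝ _)
    simp only [adR_apply, adc_swap (ct c _)] at this
    simp only [← adR_apply, ← ct_amp, z, map_zero, inner_neg_neg, inner_zero_left,
      Finset.sum_const_zero] at this
    exact ((inner_self_eq_zero (𝕜 := ℝ)).1 (by linarith)).trans (map_zero _).symm
  have z2 : fz D β f f' [] = fun _ => 0 := funext fun x => by
    have := a.2.2 x.1 0 x.2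
    rwa [z1, map_zero, zero_add, e] at this
  have f1 := ((ppZ h).fi (sep_fst hs)).wd (ppZ h).toOk (sep_fst hs').ok
  have f2 := f1.op_eq (z2 ▸ FI.zero)
  rw [(ppZ h).xx_eq (sep_fst hs), ← (ppZ h).adj_xO (sep_fst hs)] at f2
  exact h0 (ContinuousLinearMap.adjoint_comp_self_eq_zero_iff.1 f2)

/-- **NV.**  The words on the cyclic seeds span `g` at every point. -/
theorem nv (hn : ¬D.Ln β) (y : Y) (v : β.m.A) (hv : β.m.pg y v = v)
    (ho : ∀ d w, d.OK D.F → (∀ t ∈ w, laOK I3 t) → ⟪wy D β d w y, v⟫_ℝ = 0) : v = 0 := by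
  have c : Fam univ univ D.F (an β) {u | ∃ d w, d.OK D.F ∧ (∀ t ∈ w, laOK I3 t) ∧ u = wy D β d w} :=
    ⟨isClopen_univ, isOpen_univ, Subset.rfl, by simp,
      by rintro _ ⟨d, w, a, b, rfl⟩; exact (sp_wy h a b).1,
      by rintro f hf _ ⟨d, w, a, b, rfl⟩; exact ⟨d, .mul f :: w, a, List.forall_mem_cons.2 ⟨hf.sm, b⟩, rfl⟩,
      by rintro _ ⟨d, w, a, b, rfl⟩; exact ⟨d, .G :: w, a, List.forall_mem_cons.2 ⟨trivial, b⟩, rfl⟩⟩
  obtain ⟨π, k⟩ := c.exists_prj (rhA h)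
  rcases irr h hn π k.pp (fun x v => (k.le isOpen_univ h.sm_pg inner_pg (by
    rintro _ ⟨d, w, a, b, rfl⟩; exact (sp_wy h a b).2) x v).2) with e | e
  · obtain ⟨d, hd, h0⟩ := ne_zero h hn
    refine (h0 (funext fun x => ?_)).elim
    have := k.fix _ ⟨d, [], hd, by simp, rfl⟩ x trivial
    rw [e x trivial] at this
    exact this.symm
  · rw [← hv, ← e y trivial]
    refine prj_pt c (rhA h) k ?_
    rintro _ ⟨d, w, a, b, rfl⟩
    rw [real_inner_comm, ho d w a b]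

end hy

end Crest.Agent.X212.Der92
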