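import Crest.Agent.X212.Der92.Fld
import Crest.Agent.X212.Crt72.Props
import Crest.Agent.X212.Cht98.Br

/-!
# Row 212, CRIT-DER (helper92), part 2: spinor words on the cross-section and their twins
-/

set_option autoImplicit false
set_option linter.unusedSectionVars false
noncomputable section
open scoped Manifold ContDiff Topology InnerProductSpace
open MeasureTheory Set Function Filter

namespace Crest.Agent.X212.Der92
open An Sob92 Wrd81 Nt92 Dgr80 Cyf70 Nd18 Crt72 Std94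

variable {E3 : Type} [NormedAddCommGroup E3] [NormedSpace ℝ E3] [FiniteDimensional ℝ E3]
  [MeasurableSpace E3] [BorelSpace E3]
  {H3 : Type} [TopologicalSpace H3] {I3 : ModelWithCorners ℝ E3 H3} [I3.Boundaryless]
  {Y : Type} [TopologicalSpace Y] [ChartedSpace H3 Y] [IsManifold I3 ∞ Y] [T2Space Y]
  [MeasurableSpace Y] [BorelSpace Y] [SecondCountableTopology Y] [CompactSpace Y]
  {κ : Type} [Fintype κ] {lam : Type} [Fintype lam] {D : YD I3 Y κ lam} {β β' : YC Y κ lam}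

theorem nT_comp {V W U : Type} [NormedAddCommGroup V] [InnerProductSpace ℝ V]
    [NormedAddCommGroup W] [InnerProductSpace ℝ W] [NormedAddCommGroup U] [InnerProductSpace ℝ U]
    {F : Fr I3 Y κ} (A : κ → Y → V →L[ℝ] V) (A' : κ → Y → W →L[ℝ] W) (A'' : κ → Y → U →L[ℝ] U)
    {S : Y → W →L[ℝ] U} {T : Y → V →L[ℝ] W} (hS : Sm I3 S) (hT : Sm I3 T) (a : κ) (y : Y) :
    nT F A A'' a (fun z => S z ∘L T z) y =
      nT F A' A'' a S y ∘L T y + S y ∘L nT F A A' a T y := by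
  have := dv_bil (e := F.e a) (ContinuousLinearMap.compL ℝ V W U) (md hS y) (md hT y)
  simp only [ContinuousLinearMap.compL_apply] at this
  simp only [nT, Pre.D, this]
  ext v; simp; abel

theorem ok_op {V : Type} [NormedAddCommGroup V] [InnerProductSpace ℝ V] [FiniteDimensional ℝ V]
    [CompleteSpace V] {T : Y → CL V V} (hT : Sm I3 T) : (SL.op T).Ok (Sm I3) := fun _ hu =>
  ⟨hT.clm_apply hu, ((ContinuousLinearMap.adjoint (𝕜 := ℝ) (E := V) (F := V)).toContinuousLinearEquiv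
    |>.toContinuousLinearMap.contMDiff.comp hT).clm_apply hu⟩

variable (D β) in
/-- the facts on `Y` -/
structure YA : Prop where
  pm : ∀ y, PM (fun a b => D.B.P a b (y, 0)) (D.l y) D.il (β.m.p y) β.m.J (fun a => β.m.ρ a y)
    (β.m.j y)
  sp : Sm I3 β.m.p
  sρ : ∀ a, Sm I3 (β.m.ρ a)
  sj : Sm I3 β.m.j
  sΦ : Sm I3 β.Φ
  pΦ : ∀ y, β.m.p y (β.Φ y) = β.Φ y
  rh : RH D.F (cn β)
  pp : PP D.F (cn β) β.m.p
  nj : ∀ a y s, nT D.F (cn β) (cn β) a (fun z => β.m.j z s) y = β.m.j y (D.a a y s)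

theorem proj_some {N : Type} [AddCommGroup N] [Module ℝ N] {f : Option κ → N} {y : Y} {a : κ}
    (h : ∑ b, D.B.P (some a) b (y, 0) • f b = f (some a)) :
    ∑ b, D.F.P a b y • f (some b) = f (some a) := by
  simpa [Fintype.sum_option, YD.B, cP] using h

theorem ya (hD : HY D) (hβ : D.Adm β) : YA D β := by
  have H := hβ.adm.ok
  have C := hβ.adm.conn
  have sp : Sm I3 β.m.p := sm_slice_fst H.sp 0
  have sj : Sm I3 β.m.j := sm_slice_fst H.sj 0
  obtain ⟨c, hF⟩ := Cht98.exists_tame D.F (hD.dim.le.trans (by norm_num))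
  refine ⟨fun y => pmx H (y, 0), sp, fun a => sm_slice_fst (H.sρ a) 0, sj,
    sm_slice_fst hβ.adm.sm 0, fun y => ?_, rh_of_tame hF (fun a => Cb_of_compact
      (sm_slice_fst (u := (cy β).W (some a)) (C.cc.sm _) 0)) (fun a y => C.sk (some a) (y, 0))
      fun a y => proj_some (f := fun b => β.W b y) (C.cc.proj (some a) (y, 0)),
    ⟨sp, fun y => H.psym (y, 0), fun y v => ?_, fun a y => ?_⟩, fun a y s => ?_⟩
  · have h1 : (cy β).m.pp D.B (y, 0) (β.Φ y) = β.Φ y := hβ.adm.pos (y, 0)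
    have h2 := congrArg (· (β.Φ y)) (Wz78.p_pp H (y, 0))
    simp only [mul_apply_eq_comp, h1] at h2
    exact h2
  · exact congrArg (· v) (H.pidem (y, 0))
  · have h1 : (cylP D.F.toPre).D (some a) (fun x => β.m.p x.1) (y, 0) +
      (cn β a y * β.m.p y - β.m.p y * cn β a y) = 0 := C.cc.par (some a) (y, 0)
    rw [D_some_fst _ sp] at h1
    exact (eq_neg_of_add_eq_zero_left h1).trans (neg_sub _ _)
  · have h1 : (cylP D.F.toPre).D (some a) (fun x => β.m.j x.1) (y, 0) s +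
      (cn β a y * β.m.j y s - β.m.j y s * cn β a y) = β.m.j y (D.a a y s) := C.j (some a) (y, 0) s
    rw [D_some_fst _ sj] at h1
    have h2 := dv_clm (e := D.F.e a) (ContinuousLinearMap.apply ℝ (En (Fin β.m.N)) s) (md sj y)
    rw [← h1, nT, add_sub_assoc]
    exact congrArg₂ (· + ·) h2 rfl

/-- smooth words -/
abbrev WK (I3 : ModelWithCorners ℝ E3 H3) (u : List (YL Y)) : Prop := ∀ t ∈ u, YL.OK I3 t

theorem WK.cons {u : List (YL Y)} (h : WK I3 u) {t : YL Y} (ht : t.OK I3) : WK I3 (t :: u) :=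
  List.forall_mem_cons.2 ⟨ht, h⟩

theorem wk_nil : WK I3 ([] : List (YL Y)) := fun _ h => nomatch h

theorem of_some {g : Y → ℝ} (hg : Sm I3 g) : (YL.cl (some g)).OK I3 := fun _ h => by
  cases h; exact hg

theorem of_none : (YL.cl none : YL Y).OK I3 := fun _ h => nomatch h

theorem yw_cons (t : YL Y) (u : List (YL Y)) :
    yw D.F β (t :: u) = sl D.F (cn β) (ylt D.F β t) (yw D.F β u) := rfl

variable (D β) in
/-- the values of the words -/
def YW : Set (Y → β.m.V) := {w | ∃ u, WK I3 u ∧ w = yw D.F β u}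

theorem exists_g (D : YD I3 Y κ lam) (y : Y) (a : Option κ) : ∃ g, (YL.cl g).OK I3 ∧
    ∀ β : YC Y κ lam, YA D β → ∀ w, sl D.F (cn β) (ylt D.F β (.cl g)) w y = β.m.ρ a y (w y) := by
  cases a with
  | none => exact ⟨none, of_none, fun _ _ _ => rfl⟩
  | some a =>
    obtain ⟨g, hg, e⟩ := exists_tf_D D.F (univ_mem : univ ∈ 𝓝 y) a
    refine ⟨some g, of_some hg.sm, fun β h w => ?_⟩
    simp only [sl, ylt, e, proj_some (f := fun b => β.m.ρ b y) ((h.pm y).cl.proj (some a))]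

namespace YA
variable (h : YA D β)
include h

theorem idem (y : Y) (v : β.m.V) : β.m.p y (β.m.p y v) = β.m.p y v := h.pp.idem y v

theorem sm_nP : Sm I3 (nP β) :=
  sm_smul ((((contDiff_const.add (contDiff_norm_sq ℝ)).sqrt fun _ => by positivity).inv
    fun _ => by positivity).contMDiff.comp h.sΦ) h.sΦ

theorem sm_cl {g : Y → ℝ} (hg : Sm I3 g) : Sm I3 fun y => ∑ a, D.F.D a g y • β.m.ρ (some a) y :=
  contMDiff_finsetSum fun a _ => sm_smul (D.F.sm_D hg a) (h.sρ _)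

theorem ok {t : YL Y} (ht : t.OK I3) : (ylt D.F β t).Ok (Sm I3) := by
  rcases t with f | (_ | g) | _ | _
  exacts [ok_op (sm_smul ht contMDiff_const), ok_op (h.sρ _), ok_op (h.sm_cl (ht g rfl)),
    ok_op contMDiff_const, trivial]

theorem oks {u : List (YL Y)} (hu : WK I3 u) : ∀ t ∈ u.map (ylt D.F β), t.Ok (Sm I3) :=
  List.forall_mem_map.2 fun t ht => h.ok (hu t ht)

theorem sm_yw {u : List (YL Y)} (hu : WK I3 u) : Sm I3 (yw D.F β u) :=
  (cls h.rh).wd h.sm_nP (h.oks hu)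

theorem p_sl (t : YL Y) {w : Y → β.m.V} (hw : ∀ y, β.m.p y (w y) = w y) (y : Y) :
    β.m.p y (sl D.F (cn β) (ylt D.F β t) w y) = sl D.F (cn β) (ylt D.F β t) w y := by
  have e := fun a v => congrArg (· v) ((h.pm y).cl.pl a)
  rcases t with f | (_ | g) | _ | _
  · simp [sl, ylt, hw]
  · exact e _ _
  · simp only [mul_apply_eq_comp] at e
    simp [sl, ylt, e]
  · have := congrArg (· (w y)) (h.pm y).Jp
    simp only [mul_apply_eq_comp, hw] at this
    exact this.symm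
  · exact Mp86.res_fix h.rh.bmp h.rh.mc h.sp ⟨1, h.pp.norm_le⟩ h.pp.itw hw y

theorem p_yw (u : List (YL Y)) : ∀ y, β.m.p y (yw D.F β u y) = yw D.F β u y := by
  induction u with
  | nil => exact fun y => (map_smul _ _ _).trans (congrArg _ (h.pΦ y))
  | cons t u ih => exact h.p_sl t ih

theorem fam : Fam univ univ D.F (cn β) (YW D β) :=
  ⟨isClopen_univ, isOpen_univ, Subset.rfl, by simp, fun _ ⟨_, hu, e⟩ => e ▸ h.sm_yw hu,
    fun f hf _ ⟨u, hu, e⟩ => ⟨.mul f :: u, hu.cons hf.sm, e ▸ rfl⟩,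
    fun _ ⟨u, hu, e⟩ => ⟨.G :: u, hu.cons trivial, e ▸ rfl⟩⟩

theorem sm_j (s : Eu lam) : Sm I3 fun y => β.m.j y s := h.sj.clm_apply contMDiff_const

theorem j_p (y : Y) (s : Eu lam) (v : β.m.V) : β.m.j y s (β.m.p y v) = β.m.j y s v :=
  ext_inner_right ℝ fun w => by
    rw [(h.pm y).jsym, (h.pm y).psym, ← mul_apply_eq_comp, (h.pm y).pj, (h.pm y).jsym]

theorem hf {π : Y → En (Fin β.m.N)} (p : Prj univ univ D.F (cn β) (YW D β) π) (y : Y) :
    Hf (cy β).m (y, 0) (π y) := by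
  have k : ∀ {T : Y → En (Fin β.m.N)}, Sm I3 T → (∀ x, An.Skw (T x)) →
      (∀ w ∈ YW D β, (fun y => T y (w y)) ∈ YW D β) → π y * T y = T y * π y :=
    fun {T} h1 h2 h3 => p.comm T (fun x => -T x) h1 h1.neg
      (fun x v w => by rw [h2, neg_apply, inner_neg_right])
      (fun w hw => Submodule.subset_span (h3 w hw))
      (fun w hw => neg_mem (Submodule.subset_span (h3 w hw))) y (mem_univ y)
  refine ⟨p.symm y, ContinuousLinearMap.ext (p.idem y), ContinuousLinearMap.ext fun v =>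
    (p.le isOpen_univ h.sp h.pp.symm (fun _ ⟨u, _, e⟩ => e ▸ h.p_yw u) y v).2,
    k contMDiff_const (fun _ => (h.pm y).Jsk)
      fun _ ⟨u, hu, e⟩ => ⟨.im :: u, hu.cons trivial, e ▸ rfl⟩, fun a => ?_⟩
  cases a with
  | none =>
    exact k (h.sρ _) (fun x => (h.pm x).ρsk _)
      fun _ ⟨u, hu, e⟩ => ⟨.cl none :: u, hu.cons of_none, e ▸ rfl⟩
  | some a =>
    obtain ⟨g, hg, e⟩ := exists_tf_D D.F (univ_mem : univ ∈ 𝓝 y) a
    have := k (h.sm_cl hg.sm) (fun x v w => by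
      simp [sum_inner, inner_sum, real_inner_smul_left, real_inner_smul_right, (h.pm x).ρsk _ v])
      fun _ ⟨u, hu, e⟩ => ⟨.cl (some g) :: u, hu.cons (of_some hg.sm), e ▸ rfl⟩
    simp only [e, proj_some (f := fun b => β.m.ρ b y) ((h.pm y).cl.proj (some a))] at this
    exact this

end YA

/-- the words and their images under `j` span the fibres -/
theorem span_yw (hD : HY D) (hβ : D.Adm β) (h0 : ¬D.Zr β) (y : Y) {v : β.m.V}
    (hv : β.m.p y v = v) (h1 : ∀ u, WK I3 u → ⟪yw D.F β u y, v⟫_ℝ = 0)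
    (h2 : ∀ u, WK I3 u → ∀ s, ⟪β.m.j y s (yw D.F β u y), v⟫_ℝ = 0) : v = 0 := by
  have h := ya hD hβ
  have := hD.conn
  obtain ⟨π, p⟩ := h.fam.exists_prj h.rh
  obtain ⟨z, hz⟩ := not_forall.1 h0
  refine (h.hf p y).ext hD.ok.B hβ.adm.ok (p.ne_zero isPreconnected_univ ⟨[], wk_nil, rfl⟩
    (mem_univ z) (smul_ne_zero (by positivity) hz) (mem_univ y)) hv
    (prj_pt h.fam h.rh p fun _ ⟨u, hu, e⟩ => e ▸ (real_inner_comm _ _).trans (h1 u hu)) fun s =>
    prj_pt h.fam h.rh p fun _ ⟨u, hu, e⟩ => e ▸ ((h.pm y).jsym s _ _).trans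
      ((real_inner_comm _ _).trans (h2 u hu s))

theorem ext_yw (hD : HY D) (hβ : D.Adm β) (h0 : ¬D.Zr β) (y : Y) {N : Type}
    [NormedAddCommGroup N] [InnerProductSpace ℝ N] [FiniteDimensional ℝ N] {S T : CL β.m.V N}
    (hS : ∀ v, S (β.m.p y v) = S v) (hT : ∀ v, T (β.m.p y v) = T v)
    (h1 : ∀ u, WK I3 u → S (yw D.F β u y) = T (yw D.F β u y))
    (h2 : ∀ u, WK I3 u → ∀ s, S (β.m.j y s (yw D.F β u y)) = T (β.m.j y s (yw D.F β u y)))
    (v : β.m.V) : S v = T v := by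
  have := FiniteDimensional.complete ℝ N
  refine ext_inner_right ℝ fun n => sub_eq_zero.1 ?_
  have e : ∀ w, ⟪w, ContinuousLinearMap.adjoint (S - T) n⟫_ℝ = ⟪S w, n⟫_ℝ - ⟪T w, n⟫_ℝ := fun w => by
    rw [ContinuousLinearMap.adjoint_inner_right, sub_apply, inner_sub_left]
  rw [← e, span_yw hD hβ h0 y (v := ContinuousLinearMap.adjoint (S - T) n)
    (ext_inner_left ℝ fun w => by rw [← (ya hD hβ).pp.symm, e, e, hS, hT])
    (fun u hu => by rw [e, h1 u hu, sub_self]) fun u hu s => by rw [e, h2 u hu, sub_self],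
    inner_zero_right]

theorem jj (hD : HY D) (y : Y) (s t : Eu lam) : ∃ a b : ℝ, ∀ β : YC Y κ lam, YA D β → ∀ v,
    β.m.j y t (β.m.j y s v) = a • β.m.p y v + b • β.m.J (β.m.p y v) := by
  obtain ⟨s₀, f⟩ := (plx hD.ok.B (y, 0)).exists_lf
  refine ⟨⟪s₀, t⟫_ℝ * ⟪s₀, s⟫_ℝ + ⟪D.il s₀, t⟫_ℝ * ⟪D.il s₀, s⟫_ℝ,
    ⟪D.il s₀, t⟫_ℝ * ⟪s₀, s⟫_ℝ - ⟪s₀, t⟫_ℝ * ⟪D.il s₀, s⟫_ℝ, fun β h v => ?_⟩
  have P := h.pm y
  have k : ∀ w, β.m.j y s₀ (β.m.j y s₀ w) = β.m.p y w := fun w => by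
    have : D.l y s₀ = s₀ := f.ls
    rw [← mul_apply_eq_comp, P.jsq, this, f.n1]; simp
  have k1 : ∀ w, β.m.j y s₀ (β.m.J w) = -β.m.J (β.m.j y s₀ w) := fun w => congrArg (· w) (P.jJ s₀)
  have k2 : ∀ w, β.m.J (β.m.J w) = -w := fun w => congrArg (· w) P.Jsq
  rw [P.j_eq f t, P.j_eq f s]
  simp only [add_apply, smul_apply, mul_apply_eq_comp, map_add, map_smul, k, k1, map_neg, k2]
  module

variable (D β β') in
/-- twins of the words in a second configuration -/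
structure Tw (α : κ → Y → CL β.m.V β'.m.V) (δ : List (YL Y) → Y → β'.m.V)
    (B : (β.m.V × β'.m.V) →L[ℝ] (β.m.V × β'.m.V) →L[ℝ] ℝ) : Prop where
  sα : ∀ a, Sm I3 (α a)
  pα : ∀ a y, ∑ b, D.F.P a b y • α b y = α a y
  αp : ∀ a y v, α a y (β.m.p y v) = α a y v
  αj : ∀ a y s v, α a y (β.m.j y s v) = β'.m.j y s (α a y v)
  sm : ∀ u, WK I3 u → Sm I3 (δ u)
  p : ∀ u, WK I3 u → ∀ y, β'.m.p y (δ u y) = δ u y
  op : ∀ t u, t ≠ .G → δ (t :: u) = sl D.F (cn β') (ylt D.F β' t) (δ u)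
  G : ∀ u, WK I3 u → ∀ y, lap1 D.F (cn β') (δ (.G :: u)) y =
    δ u y - dm D.F (cn β) (cn β') α (yw D.F β (.G :: u)) y
  symm : ∀ x z, B x z = B z x
  Bj : ∀ y s a a' b b', B (β.m.j y s a, β'.m.j y s a') (b, b') =
    B (a, a') (β.m.j y s b, β'.m.j y s b')
  B1 : ∀ u, WK I3 u → ∀ v, WK I3 v → ∀ y, B (yw D.F β u y, δ u y) (yw D.F β v y, δ v y) = 0
  B2 : ∀ u, WK I3 u → ∀ v, WK I3 v → ∀ y s,
    B (β.m.j y s (yw D.F β u y), β'.m.j y s (δ u y)) (yw D.F β v y, δ v y) = 0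
  nd : ∀ y z, β'.m.p y z = z → B (0, z) (0, z) = 0 →
    (∀ u, WK I3 u → B (0, z) (yw D.F β u y, δ u y) = 0) → (∀ u, WK I3 u → ∀ s,
      B (0, z) (β.m.j y s (yw D.F β u y), β'.m.j y s (δ u y)) = 0) → z = 0

/-- **The twins are the images of the words under a field of intertwiners.** -/
theorem Tw.exists {α : κ → Y → CL β.m.V β'.m.V} {δ : List (YL Y) → Y → β'.m.V}
    {B : (β.m.V × β'.m.V) →L[ℝ] (β.m.V × β'.m.V) →L[ℝ] ℝ} (k : Tw D β β' α δ B) (hD : HY D)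
    (hβ : D.Adm β) (hβ' : D.Adm β') (h0 : ¬D.Zr β) : ∃ T : Y → CL β.m.V β'.m.V, Sm I3 T ∧
      (∀ y, Itw (β.m.p y) β.m.J (fun a => β.m.ρ a y) (β.m.j y) (β'.m.p y) β'.m.J
        (fun a => β'.m.ρ a y) (β'.m.j y) (T y)) ∧ (∀ y, T y (nP β y) = δ [] y) ∧
      (∀ y a b, B (β.m.p y a, T y a) (β.m.p y b, T y b) = 0) ∧
      ∀ a y, nT D.F (cn β) (cn β') a T y + α a y = 0 := by
  have h := ya hD hβ
  have h' := ya hD hβ'
  let 𝒥 : Set ((Y → β.m.V) × (Y → β'.m.V)) := {j | ∃ u, WK I3 u ∧ (j = (yw D.F β u, δ u) ∨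
    ∃ s, j = (fun y => β.m.j y s (yw D.F β u y), fun y => β'.m.j y s (δ u y)))}
  have pj : ∀ {β : YC Y κ lam}, YA D β → ∀ y s v, β.m.p y (β.m.j y s v) = β.m.j y s v :=
    fun h y s v => congrArg (· v) ((h.pm y).pj s)
  have im : ∀ u y, δ (.im :: u) y = β'.m.J (δ u y) := fun u y => by
    rw [k.op _ _ (by simp)]; rfl
  have b0 : ∀ i ∈ 𝒥, ∀ j ∈ 𝒥, ∀ y, B (i.1 y, i.2 y) (j.1 y, j.2 y) = 0 := by
    rintro _ ⟨u, hu, rfl | ⟨s, rfl⟩⟩ _ ⟨v, hv, rfl | ⟨t, rfl⟩⟩ y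
    · exact k.B1 u hu v hv y
    · exact (k.symm _ _).trans (k.B2 v hv u hu y t)
    · exact k.B2 u hu v hv y s
    · obtain ⟨a, b, e⟩ := jj hD y t s
      have e1 := k.B1 u hu _ (hv.cons (t := .im) trivial) y
      rw [im] at e1
      rw [k.Bj, e β h, e β' h', h.p_yw, k.p v hv, ← Prod.mk_add_mk, ← Prod.smul_mk, ← Prod.smul_mk,
        map_add, map_smul, map_smul, k.B1 u hu v hv y]
      simpa using .inr e1
  have b1 : ∀ i ∈ Submodule.span ℝ 𝒥, ∀ y, β'.m.p y (i.2 y) = i.2 y ∧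
      ∀ j ∈ Submodule.span ℝ 𝒥, B (i.1 y, i.2 y) (j.1 y, j.2 y) = 0 := fun i hi y => by
    refine ⟨?_, fun j hj => ?_⟩
    · induction hi using Submodule.span_induction with
      | mem i hi => obtain ⟨u, hu, rfl | ⟨s, rfl⟩⟩ := hi; exacts [k.p u hu y, pj h' _ _ _]
      | zero => simp
      | add i j _ _ a b => simp [a, b]
      | smul c i _ a => simp [a]
    · induction hi, hj using Submodule.span_induction₂ with
      | mem_mem i j hi hj => exact b0 i hi j hj y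
      | zero_left => exact DFunLike.congr_fun (map_zero B) _
      | zero_right => exact map_zero _
      | add_left i j l _ _ _ a b =>
        exact (DFunLike.congr_fun (map_add B (i.1 y, i.2 y) (j.1 y, j.2 y)) _).trans (by simp [a, b])
      | add_right i j l _ _ _ a b =>
        exact (map_add _ (j.1 y, j.2 y) (l.1 y, l.2 y)).trans (by simp [a, b])
      | smul_left c i j _ _ a =>
        exact (DFunLike.congr_fun (map_smul B c (i.1 y, i.2 y)) _).trans (by simp [a])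
      | smul_right c i j _ _ a => exact (map_smul _ c (j.1 y, j.2 y)).trans (by simp [a])
  obtain ⟨T, sT, Tp, hT⟩ := exists_fld (𝒥 := 𝒥) h.sp h.pp.symm h.idem (by
      rintro _ ⟨u, hu, rfl | ⟨s, rfl⟩⟩
      exacts [⟨h.sm_yw hu, k.sm u hu⟩,
        ⟨(h.sm_j s).clm_apply (h.sm_yw hu), (h'.sm_j s).clm_apply (k.sm u hu)⟩])
    (by rintro _ ⟨u, hu, rfl | ⟨s, rfl⟩⟩ y; exacts [h.p_yw u y, pj h _ _ _])
    (fun y v a b => span_yw hD hβ h0 y a (fun u hu => b _ ⟨u, hu, .inl rfl⟩)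
      fun u hu s => b _ ⟨u, hu, .inr ⟨s, rfl⟩⟩) fun j hj y e => k.nd y _ (b1 j hj y).1
      (e ▸ (b1 j hj y).2 j hj)
      (fun u hu => e ▸ (b1 j hj y).2 _ (Submodule.subset_span ⟨u, hu, .inl rfl⟩))
      fun u hu s => e ▸ (b1 j hj y).2 _ (Submodule.subset_span ⟨u, hu, .inr ⟨s, rfl⟩⟩)
  have T1 : ∀ u, WK I3 u → ∀ y, T y (yw D.F β u y) = δ u y := fun u hu => hT _ ⟨u, hu, .inl rfl⟩
  have T2 : ∀ u, WK I3 u → ∀ y s, T y (β.m.j y s (yw D.F β u y)) = β'.m.j y s (δ u y) :=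
    fun u hu y s => hT _ ⟨u, hu, .inr ⟨s, rfl⟩⟩ y
  have TJ : ∀ u, WK I3 u → ∀ y, T y (β.m.J (yw D.F β u y)) = β'.m.J (δ u y) := fun u hu y =>
    (T1 _ (hu.cons (t := .im) trivial) y).trans (im u y)
  have Tj : ∀ y s v, T y (β.m.j y s v) = β'.m.j y s (T y v) := fun y s =>
    ext_yw hD hβ h0 y (S := T y ∘L β.m.j y s) (T := β'.m.j y s ∘L T y)
      (fun v => by simp [h.j_p]) (fun v => by simp [Tp]) (fun u hu => by simp [T1 u hu, T2 u hu])
      fun u hu t => by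
        obtain ⟨a, b, e⟩ := jj hD y t s
        simp [e β h, e β' h', h.p_yw, k.p u hu, T1 u hu, T2 u hu, TJ u hu]
  refine ⟨T, sT, fun y => ⟨?_, Tp y, fun a => ?_, ?_, Tj y⟩, T1 [] wk_nil, fun y a b => ?_,
    fun a y => ?_⟩
  · exact ext_yw hD hβ h0 y (S := β'.m.p y ∘L T y) (fun v => by simp [Tp]) (Tp y)
      (fun u hu => by simp [T1 u hu, k.p u hu]) fun u hu s => by simp [T2 u hu, pj h']
  · obtain ⟨g, hg, e⟩ := exists_g D y a
    have e1 : ∀ u, WK I3 u → T y (β.m.ρ a y (yw D.F β u y)) = β'.m.ρ a y (δ u y) := fun u hu => by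
      rw [← e β h, ← e β' h', ← k.op _ _ (by simp)]; exact T1 _ (hu.cons hg) y
    have e2 : ∀ {β : YC Y κ lam}, YA D β → ∀ s v,
        β.m.ρ a y (β.m.j y s v) = β.m.j y s (β.m.ρ a y v) :=
      fun h s v => (congrArg (· v) ((h.pm y).jρ a s)).symm
    exact ext_yw hD hβ h0 y (S := T y ∘L β.m.ρ a y) (T := β'.m.ρ a y ∘L T y)
      (fun v => congrArg (T y) (congrArg (· v) ((h.pm y).cl.pr a))) (fun v => by simp [Tp])
      (fun u hu => by simp [T1 u hu, e1 u hu])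
      fun u hu s => by simp [e2 h, e2 h', Tj, e1 u hu, T1 u hu]
  · have e2 : ∀ {β : YC Y κ lam}, YA D β → ∀ s v, β.m.J (β.m.j y s v) = -β.m.j y s (β.m.J v) :=
      fun h s v => (neg_eq_iff_eq_neg.2 (congrArg (· v) ((h.pm y).jJ s))).symm
    exact ext_yw hD hβ h0 y (S := T y ∘L β.m.J) (T := β'.m.J ∘L T y)
      (fun v => (congrArg (T y) (congrArg (· v) (h.pm y).Jp)).trans (Tp y _))
      (fun v => by simp [Tp]) (fun u hu => by simp [T1 u hu, TJ u hu])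
      fun u hu s => by simp [e2 h, e2 h', Tj, TJ u hu, T1 u hu]
  · have e1 : ∀ x, (∀ j ∈ 𝒥, B x (j.1 y, j.2 y) = 0) → ∀ b, B x (β.m.p y b, T y b) = 0 :=
      fun x hx => ext_yw hD hβ h0 y (S := B x ∘L (β.m.p y).prod (T y)) (T := 0)
        (fun v => by simp [Tp, h.idem]) (fun _ => rfl)
        (fun u hu => by simpa [h.p_yw, T1 u hu] using hx _ ⟨u, hu, .inl rfl⟩)
        fun u hu s => by simpa [pj h, T2 u hu] using hx _ ⟨u, hu, .inr ⟨s, rfl⟩⟩
    exact e1 _ (fun j hj => (k.symm _ _).trans (e1 _ (b0 j hj · · y) a)) b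
  · obtain ⟨π, p⟩ := h.fam.exists_prj h.rh
    have e0 : ∀ u, WK I3 u → (nT D.F (cn β) (cn β') a T y + α a y) (yw D.F β u y) = 0 :=
      fun u hu => by
        rw [← p.fix _ ⟨u, hu, rfl⟩ y (mem_univ y)]
        refine par_fld h.rh h'.rh.mc h'.rh.proj k.sα k.pα h.fam p sT ?_ a y _
        rintro _ ⟨u, hu, rfl⟩ x
        rw [T1 u hu]
        exact (congrArg (lap1 D.F (cn β') · x)
          (funext (T1 _ (hu.cons (t := .G) trivial)))).trans (k.G u hu x)
    have e1 := nT_comp (F := D.F) (cn β) (cn β) (cn β') sT h.sp a y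
    have e2 : nT D.F (cn β) (cn β) a β.m.p y = 0 := by
      rw [nT, h.pp.par]; exact sub_eq_zero.2 (sub_add_cancel _ _)
    rw [show (fun z => T z ∘L β.m.p z) = T from funext fun z => ContinuousLinearMap.ext (Tp z), e2,
      ContinuousLinearMap.comp_zero, add_zero] at e1
    refine ContinuousLinearMap.ext (ext_yw hD hβ h0 y (T := 0) (fun v => ?_) (fun _ => rfl) e0
      fun u hu s => ?_)
    · rw [add_apply, add_apply, k.αp, ← ContinuousLinearMap.comp_apply, ← e1]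
    · have e3 := nT_comp (F := D.F) (cn β) (cn β) (cn β') sT (h.sm_j s) a y
      rw [show (fun z => T z ∘L β.m.j z s) = fun z => β'.m.j z s ∘L T z from
        funext fun z => ContinuousLinearMap.ext (Tj z s),
        nT_comp (cn β) (cn β') (cn β') (h'.sm_j s) sT, h.nj, h'.nj] at e3
      have e4 := congrArg (· (yw D.F β u y)) e3
      have e5 := congrArg (β'.m.j y s) (e0 u hu)
      simp only [add_apply, ContinuousLinearMap.comp_apply, Tj, map_add, map_zero] at e4 e5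
      rw [add_apply, k.αj, zero_apply, ← e5, add_left_inj]
      exact (add_left_cancel (e4.trans (add_comm _ _))).symm

end Crest.Agent.X212.Der92
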